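import Vale.Agent.P220.R2.H562.S.Ham
import Mathlib.Analysis.InnerProductSpace.ProdL2

/-!
# The product of two spheres and its diagonal rotations
-/

open Set Filter Topology
open scoped ContDiff

set_option linter.unusedSectionVars false

namespace Vale.Agent.P220.R2.H562.S

open H57 H180 H562

variable {V : Type} [NormedAddCommGroup V] [InnerProductSpace ℝ V] [FiniteDimensional ℝ V]

/-- the orthogonal sum of two copies of `V` -/
abbrev DD (V : Type) [NormedAddCommGroup V] [InnerProductSpace ℝ V] : Type := WithLp 2 (V × V)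

/-- a pair as a point of `DD V` -/
def mk (x y : V) : DD V := WithLp.toLp 2 (x, y)

@[simp] theorem mk_fst (x y : V) : (mk x y).fst = x := rfl
@[simp] theorem mk_snd (x y : V) : (mk x y).snd = y := rfl

theorem ext_DD {x y : DD V} (h1 : x.fst = y.fst) (h2 : x.snd = y.snd) : x = y :=
  WithLp.ofLp_injective 2 (Prod.ext h1 h2)

theorem inner_DD (x y : DD V) : (inner ℝ x y : ℝ) = inner ℝ x.fst y.fst + inner ℝ x.snd y.snd :=
  rfl

theorem norm_DD (x : DD V) : ‖x‖ ^ 2 = ‖x.fst‖ ^ 2 + ‖x.snd‖ ^ 2 := by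
  rw [← real_inner_self_eq_norm_sq, inner_DD, real_inner_self_eq_norm_sq,
    real_inner_self_eq_norm_sq]

/-- the product of two spheres of squared radius one half -/
def QQ (V : Type) [NormedAddCommGroup V] [InnerProductSpace ℝ V] : Set (DD V) :=
  {x | ‖x.fst‖ ^ 2 = 1 / 2 ∧ ‖x.snd‖ ^ 2 = 1 / 2}

theorem QQ_sub : QQ V ⊆ Sph (DD V) := by
  rintro x ⟨h1, h2⟩
  rw [mem_Sph, ← sq_eq_sq₀ (norm_nonneg _) zero_le_one, norm_DD, h1, h2]
  norm_num

theorem QQ_compact : IsCompact (QQ V) := by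
  have h1 : IsClosed (QQ V) := by
    have e1 : QQ V = {x : DD V | ‖x.fst‖ ^ 2 = 1 / 2} ∩ {x : DD V | ‖x.snd‖ ^ 2 = 1 / 2} := rfl
    rw [e1]
    have c1 : Continuous fun x : DD V => ‖x.fst‖ ^ 2 :=
      (WithLp.prod_continuous_ofLp 2 V V |> continuous_fst.comp).norm.pow 2
    have c2 : Continuous fun x : DD V => ‖x.snd‖ ^ 2 :=
      (WithLp.prod_continuous_ofLp 2 V V |> continuous_snd.comp).norm.pow 2
    exact (isClosed_eq c1 continuous_const).inter (isClosed_eq c2 continuous_const)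
  exact (isCompact_sphere (0 : DD V) 1).of_isClosed_subset h1 QQ_sub

/-- `√2` -/
noncomputable def c2 : ℝ := √2

theorem c2_sq : c2 ^ 2 = 2 := Real.sq_sqrt (by norm_num)
theorem c2_mul : c2 * c2 = 2 := by rw [← sq]; exact c2_sq
theorem c2_pos : 0 < c2 := Real.sqrt_pos.2 (by norm_num)
theorem c2_ne : c2 ≠ 0 := c2_pos.ne'
theorem c2i_sq : c2⁻¹ ^ 2 = 1 / 2 := by rw [inv_pow, c2_sq]; norm_num
theorem c2i_mul : c2⁻¹ * c2⁻¹ = 1 / 2 := by rw [← sq]; exact c2i_sq
theorem c2i_pos : 0 < c2⁻¹ := inv_pos.2 c2_pos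

theorem norm_c2 {x : V} (h : ‖x‖ ^ 2 = 1 / 2) : ‖c2 • x‖ = 1 := by
  rw [← sq_eq_sq₀ (norm_nonneg _) zero_le_one, norm_smul, mul_pow, h, Real.norm_eq_abs, sq_abs,
    c2_sq]
  norm_num

theorem norm_c2i {x : V} (h : ‖x‖ = 1) : ‖c2⁻¹ • x‖ ^ 2 = 1 / 2 := by
  rw [norm_smul, mul_pow, h, Real.norm_eq_abs, sq_abs, c2i_sq]
  norm_num

theorem contDiff_fst' : ContDiff ℝ ∞ fun x : DD V => x.fst :=
  (WithLp.prodContinuousLinearEquiv 2 ℝ V V).contDiff.fst
theorem contDiff_snd' : ContDiff ℝ ∞ fun x : DD V => x.snd :=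
  (WithLp.prodContinuousLinearEquiv 2 ℝ V V).contDiff.snd
theorem contDiff_mk {G : Type} [NormedAddCommGroup G] [NormedSpace ℝ G] {f g : G → V}
    (hf : ContDiff ℝ ∞ f) (hg : ContDiff ℝ ∞ g) : ContDiff ℝ ∞ fun x => mk (f x) (g x) :=
  (WithLp.prodContinuousLinearEquiv 2 ℝ V V).symm.contDiff.comp (hf.prodMk hg)

theorem exists_QQ_ret : ∃ (U : Set (DD V)) (r : DD V → DD V), IsRet (QQ V) U r := by
  obtain ⟨U, r, hr⟩ := exists_sph_ret (E := V)
  have h1 : Continuous fun x : DD V => c2 • x.fst := (contDiff_fst'.continuous).const_smul _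
  have h2 : Continuous fun x : DD V => c2 • x.snd := (contDiff_snd'.continuous).const_smul _
  refine ⟨{x | c2 • x.fst ∈ U ∧ c2 • x.snd ∈ U},
    fun x => mk (c2⁻¹ • r (c2 • x.fst)) (c2⁻¹ • r (c2 • x.snd)), QQ_compact.isClosed, ?_, ?_, ?_,
    ?_, ?_⟩
  · exact (hr.isOpen.preimage h1).inter (hr.isOpen.preimage h2)
  · rintro x ⟨h3, h4⟩
    exact ⟨hr.sub (mem_Sph.2 (norm_c2 h3)), hr.sub (mem_Sph.2 (norm_c2 h4))⟩
  · exact contDiff_mk ((hr.smooth.comp (contDiff_fst'.const_smul c2)).const_smul _)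
      ((hr.smooth.comp (contDiff_snd'.const_smul c2)).const_smul _)
  · rintro x ⟨h3, h4⟩
    exact ⟨norm_c2i (mem_Sph.1 (hr.maps _ h3)), norm_c2i (mem_Sph.1 (hr.maps _ h4))⟩
  · rintro x ⟨h3, h4⟩
    refine ext_DD ?_ ?_
    · change c2⁻¹ • r (c2 • x.fst) = x.fst
      rw [hr.fix _ (mem_Sph.2 (norm_c2 h3)), smul_smul, inv_mul_cancel₀ c2_ne, one_smul]
    · change c2⁻¹ • r (c2 • x.snd) = x.snd
      rw [hr.fix _ (mem_Sph.2 (norm_c2 h4)), smul_smul, inv_mul_cancel₀ c2_ne, one_smul]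

theorem cot_QQ {z : DD V × DD V} (hz : z ∈ Cot (QQ V)) : inner ℝ z.1.fst z.2.fst = (0 : ℝ) ∧
    inner ℝ z.1.snd z.2.snd = (0 : ℝ) := by
  obtain ⟨hz1, c, hc, hcS, h0, hd⟩ := hz
  have h1 : HasDerivAt c z.2 0 := by
    rw [← hd]
    exact (hc.differentiable (by simp) 0).hasDerivAt
  have h2 : HasDerivAt (fun t => (c t).fst) z.2.fst 0 :=
    (((ContinuousLinearMap.fst ℝ V V).comp
      (WithLp.prodContinuousLinearEquiv 2 ℝ V V : DD V →L[ℝ] V × V)).hasFDerivAt).comp_hasDerivAt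
      (0 : ℝ) h1
  have h3 : HasDerivAt (fun t => (c t).snd) z.2.snd 0 :=
    (((ContinuousLinearMap.snd ℝ V V).comp
      (WithLp.prodContinuousLinearEquiv 2 ℝ V V : DD V →L[ℝ] V × V)).hasFDerivAt).comp_hasDerivAt
      (0 : ℝ) h1
  constructor
  · have h4 := h2.inner ℝ h2
    have h5 : (fun t => inner ℝ (c t).fst (c t).fst : ℝ → ℝ) = fun _ => 1 / 2 := by
      funext t
      rw [real_inner_self_eq_norm_sq, (hcS t).1]
    rw [h5, h0] at h4
    have h6 := h4.unique (hasDerivAt_const _ _)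
    rw [real_inner_comm z.1.fst z.2.fst] at h6
    linarith
  · have h4 := h3.inner ℝ h3
    have h5 : (fun t => inner ℝ (c t).snd (c t).snd : ℝ → ℝ) = fun _ => 1 / 2 := by
      funext t
      rw [real_inner_self_eq_norm_sq, (hcS t).2]
    rw [h5, h0] at h4
    have h6 := h4.unique (hasDerivAt_const _ _)
    rw [real_inner_comm z.1.snd z.2.snd] at h6
    linarith

/-- the diagonal action -/
noncomputable def dg (g : V ≃ₗᵢ[ℝ] V) : DD V ≃ₗᵢ[ℝ] DD V :=
  LinearIsometryEquiv.withLpProdCongr 2 g g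

@[simp] theorem dg_fst (g : V ≃ₗᵢ[ℝ] V) (x : DD V) : (dg g x).fst = g x.fst := rfl
@[simp] theorem dg_snd (g : V ≃ₗᵢ[ℝ] V) (x : DD V) : (dg g x).snd = g x.snd := rfl

/-- the projection to the antidiagonal -/
noncomputable def PA : DD V →L[ℝ] DD V :=
  LinearMap.toContinuousLinearMap
    { toFun := fun x => mk ((1 / 2 : ℝ) • (x.fst - x.snd)) (-((1 / 2 : ℝ) • (x.fst - x.snd)))
      map_add' := fun x y => by
        refine ext_DD ?_ ?_
        · simp only [WithLp.add_fst, WithLp.add_snd, mk_fst]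
          module
        · simp only [WithLp.add_fst, WithLp.add_snd, mk_snd]
          module
      map_smul' := fun c x => by
        refine ext_DD ?_ ?_
        · simp only [WithLp.smul_fst, WithLp.smul_snd, mk_fst, RingHom.id_apply]
          module
        · simp only [WithLp.smul_fst, WithLp.smul_snd, mk_snd, RingHom.id_apply]
          module }

theorem PA_fst (x : DD V) : (PA x).fst = (1 / 2 : ℝ) • (x.fst - x.snd) := rfl
theorem PA_snd (x : DD V) : (PA x).snd = -((1 / 2 : ℝ) • (x.fst - x.snd)) := rfl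

theorem isPr_PA : IsPr (PA (V := V)) := by
  refine ⟨fun x => ?_, fun x y => ?_⟩
  · refine ext_DD ?_ ?_
    · rw [PA_fst, PA_fst, PA_snd]
      module
    · rw [PA_snd, PA_snd, PA_fst]
      module
  · rw [inner_DD, inner_DD, PA_fst, PA_snd, PA_fst, PA_snd]
    simp only [inner_neg_left, inner_neg_right, inner_smul_left, inner_smul_right, inner_sub_left,
      inner_sub_right, conj_trivial]
    ring

theorem PA_dg (g : V ≃ₗᵢ[ℝ] V) (x : DD V) : PA (dg g x) = dg g (PA x) := by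
  refine ext_DD ?_ ?_
  · rw [PA_fst, dg_fst, dg_fst, dg_snd, PA_fst, map_smul, map_sub]
  · rw [PA_snd, dg_fst, dg_snd, dg_snd, PA_snd, map_neg, map_smul, map_sub]

/-- the diagonal unit vector -/
noncomputable def eD (e : V) : DD V := mk (c2⁻¹ • e) (c2⁻¹ • e)
/-- the antidiagonal unit vector -/
noncomputable def uD (u : V) : DD V := mk (c2⁻¹ • u) (-(c2⁻¹ • u))

@[simp] theorem eD_fst (e : V) : (eD e).fst = c2⁻¹ • e := rfl
@[simp] theorem eD_snd (e : V) : (eD e).snd = c2⁻¹ • e := rfl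
@[simp] theorem uD_fst (e : V) : (uD e).fst = c2⁻¹ • e := rfl
@[simp] theorem uD_snd (e : V) : (uD e).snd = -(c2⁻¹ • e) := rfl

theorem adm {e u : V} (h : Orth e u) : Adm PA (QQ V) (eD e) (uD u) := by
  have n1 : ‖eD e‖ = 1 := by
    rw [← sq_eq_sq₀ (norm_nonneg _) zero_le_one, norm_DD, eD_fst, eD_snd, norm_c2i h.v1]
    norm_num
  have n2 : ‖uD u‖ = 1 := by
    rw [← sq_eq_sq₀ (norm_nonneg _) zero_le_one, norm_DD, uD_fst, uD_snd, norm_neg,
      norm_c2i h.w1]
    norm_num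
  refine ⟨n1, ?_, n2, ?_, ?_⟩
  · refine ext_DD ?_ ?_
    · rw [PA_fst, eD_fst, eD_snd, sub_self, smul_zero]; rfl
    · rw [PA_snd, eD_fst, eD_snd, sub_self, smul_zero, neg_zero]; rfl
  · refine ext_DD ?_ ?_
    · rw [PA_fst, uD_fst, uD_snd]
      module
    · rw [PA_snd, uD_fst, uD_snd]
      module
  · intro a b hab
    constructor
    · rw [WithLp.add_fst, WithLp.smul_fst, WithLp.smul_fst, eD_fst, uD_fst,
        ← real_inner_self_eq_norm_sq]
      simp only [inner_add_left, inner_add_right, inner_smul_left, inner_smul_right, h.vv, h.ww,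
        h.vw, h.wv, conj_trivial]
      linear_combination c2⁻¹ ^ 2 * hab + c2i_sq
    · rw [WithLp.add_snd, WithLp.smul_snd, WithLp.smul_snd, eD_snd, uD_snd,
        ← real_inner_self_eq_norm_sq]
      simp only [inner_add_left, inner_add_right, inner_smul_left, inner_smul_right, h.vv, h.ww,
        h.vw, h.wv, conj_trivial, inner_neg_left, inner_neg_right]
      linear_combination c2⁻¹ ^ 2 * hab + c2i_sq

theorem adm_iff {x y : DD V} (h : Adm PA (QQ V) x y) : ∃ e u, Orth e u ∧ x = eD e ∧ y = uD u := by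
  have h1 : x.fst = x.snd := by
    have h2 := congrArg WithLp.fst h.Pe
    rw [PA_fst] at h2
    have h3 : (1 / 2 : ℝ) • (x.fst - x.snd) = 0 := h2
    rcases smul_eq_zero.1 h3 with h4 | h4
    · norm_num at h4
    · exact sub_eq_zero.1 h4
  have h2 : y.snd = -y.fst := by
    have h3 := congrArg WithLp.fst h.Pu
    have h4 := congrArg WithLp.snd h.Pu
    rw [PA_fst] at h3
    rw [PA_snd, h3] at h4
    exact h4.symm
  have n1 : ‖x.fst‖ ^ 2 = 1 / 2 := by
    have h3 := norm_DD x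
    rw [h.ne, ← h1] at h3
    linarith
  have n2 : ‖y.fst‖ ^ 2 = 1 / 2 := by
    have h3 := norm_DD y
    rw [h.nu, h2, norm_neg] at h3
    linarith
  refine ⟨c2 • x.fst, c2 • y.fst, ⟨norm_c2 n1, norm_c2 n2, ?_⟩, ?_, ?_⟩
  · have h3 := (h.circ c2⁻¹ c2⁻¹ (by rw [c2i_sq]; norm_num)).1
    rw [WithLp.add_fst, WithLp.smul_fst, WithLp.smul_fst, ← real_inner_self_eq_norm_sq] at h3
    simp only [inner_add_left, inner_add_right, inner_smul_left, inner_smul_right, conj_trivial,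
      real_inner_self_eq_norm_sq, n1, n2, real_inner_comm x.fst y.fst] at h3
    rw [inner_smul_left, inner_smul_right]
    have h4 := c2i_sq
    have h5 : (inner ℝ x.fst y.fst : ℝ) = 0 := by
      linear_combination h3 - (1 + 2 * (inner ℝ x.fst y.fst : ℝ)) * h4
    rw [h5]
    ring
  · refine ext_DD ?_ ?_
    · rw [eD_fst, smul_smul, inv_mul_cancel₀ c2_ne, one_smul]
    · rw [eD_snd, smul_smul, inv_mul_cancel₀ c2_ne, one_smul, h1]
  · refine ext_DD ?_ ?_
    · rw [uD_fst, smul_smul, inv_mul_cancel₀ c2_ne, one_smul]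
    · rw [uD_snd, smul_smul, inv_mul_cancel₀ c2_ne, one_smul, h2]

end Vale.Agent.P220.R2.H562.S
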