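import Vale.Agent.P220.R2.H180.Slice
import Vale.Agent.P220.R2.H506.ScaleHam

/-!
# Scaling
-/

open Set Filter Topology
open scoped ContDiff

set_option linter.unusedSectionVars false

namespace Vale.Agent.P220.R2.H562.S

open H57

/-- the symplectic scaling -/
noncomputable def scl (E : Type) [NormedAddCommGroup E] [InnerProductSpace ℝ E] (c : ℝ) (z : E × E) :
    E × E := (c • z.1, c⁻¹ • z.2)

theorem submanifold_image {F : Type} [NormedAddCommGroup F] [NormedSpace ℝ F] {n : ℕ} {S : Set F}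
    (hS : IsSubmanifold n S) (Λ : F ≃L[ℝ] F) : IsSubmanifold n (Λ '' S) := by
  rintro _ ⟨x, hx, rfl⟩
  obtain ⟨Φ, W, h1, h2, h3, h4, h5⟩ := hS x hx
  set Ψ := Λ.symm.toHomeomorph.toOpenPartialHomeomorph with hΨ
  have hmem : ∀ y, y ∈ (Ψ.trans Φ).source ↔ Λ.symm y ∈ Φ.source := by
    intro y
    rw [OpenPartialHomeomorph.trans_source]
    simp [hΨ]
  have hcoe : ∀ y, (Ψ.trans Φ) y = Φ (Λ.symm y) := fun y => rfl
  have hsymm : ∀ y, (Ψ.trans Φ).symm y = Λ (Φ.symm y) := fun y => rfl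
  refine ⟨Ψ.trans Φ, W, ?_, ?_, ?_, h4, ?_⟩
  · rw [hmem, Λ.symm_apply_apply]
    exact h1
  · exact h2.comp Λ.symm.contDiff.contDiffOn fun y hy => (hmem y).1 hy
  · refine Λ.contDiff.comp_contDiffOn (h3.mono ?_)
    intro y hy
    rw [OpenPartialHomeomorph.trans_target] at hy
    exact hy.1
  · intro y hy
    rw [hcoe, ← h5 _ ((hmem y).1 hy)]
    constructor
    · rintro ⟨z, hz, rfl⟩
      rwa [Λ.symm_apply_apply]
    · intro h
      exact ⟨Λ.symm y, h, Λ.apply_symm_apply y⟩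

variable {E : Type} [NormedAddCommGroup E] [InnerProductSpace ℝ E] [FiniteDimensional ℝ E]

/-- the scaling as a continuous linear equivalence -/
noncomputable def sclE {c : ℝ} (hc : c ≠ 0) : (E × E) ≃L[ℝ] (E × E) :=
  (ContinuousLinearEquiv.smulLeft (Units.mk0 c hc)).prodCongr
    (ContinuousLinearEquiv.smulLeft (Units.mk0 c hc)⁻¹)

theorem sclE_apply {c : ℝ} (hc : c ≠ 0) (z : E × E) : sclE hc z = scl E c z := rfl

theorem tan_smul {Q : Set E} {c : ℝ} {x v : E} (hv : v ∈ Tan Q x) (hc : c ≠ 0) (k : ℝ) : k • v ∈ Tan ((fun x : E => c • x) '' Q) (c • x) := by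
  obtain ⟨γ, h1, h2, h3, h4⟩ := hv
  have h5 : HasDerivAt γ v 0 := by
    rw [← h4]
    exact (h1.differentiable (by simp) 0).hasDerivAt
  refine ⟨fun t => c • γ (c⁻¹ * k * t), (h1.comp (contDiff_const.mul contDiff_id)).const_smul c,
    fun t => ⟨_, h2 _, rfl⟩, ?_, ?_⟩
  · beta_reduce
    rw [mul_zero, h3]
  · have h6 : HasDerivAt γ v ((fun t : ℝ => c⁻¹ * k * t) 0) := by
      beta_reduce
      rw [mul_zero]
      exact h5
    have h7 : HasDerivAt (fun t : ℝ => c⁻¹ * k * t) (c⁻¹ * k) 0 := by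
      simpa using (hasDerivAt_id (0 : ℝ)).const_mul (c⁻¹ * k)
    have h8 := (HasDerivAt.scomp (0 : ℝ) h6 h7).const_smul c
    have h9 : c • (c⁻¹ * k) • v = k • v := by
      rw [smul_smul, ← mul_assoc, mul_inv_cancel₀ hc, one_mul]
    rw [h9] at h8
    exact h8.deriv

/-- a closed exact Lagrangian scales -/
theorem scale_lag {n : ℕ} {Q : Set E} {L : Set (E × E)} {c : ℝ} (hc : c ≠ 0)
    (hL : IsClosedExactLagrangian n Q L) :
    IsClosedExactLagrangian n ((fun x : E => c • x) '' Q) (scl E c '' L) := by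
  obtain ⟨f, hf, hex⟩ := hL.exact
  let Λ : (E × E) ≃L[ℝ] (E × E) := sclE hc
  have hΛ : ∀ z, scl E c z = Λ z := fun z => rfl
  have himg : scl E c '' L = Λ '' L := rfl
  have hM : ContDiff ℝ ∞ fun z => Λ.symm z := Λ.symm.contDiff
  refine ⟨?_, ?_, hL.nonempty.image _, ?_, fun z => f (Λ.symm z), hf.comp hM, ?_⟩
  · rw [himg]
    exact submanifold_image hL.mfd _
  · rw [himg]
    exact hL.compact.image Λ.continuous
  · rintro _ ⟨z, hz, rfl⟩
    obtain ⟨h1, h2⟩ := hL.sub hz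
    exact ⟨⟨z.1, h1, rfl⟩, tan_smul h2 hc _⟩
  · rintro _ ⟨z, hz, rfl⟩ v ⟨γ, h1, h2, h3, h4⟩
    have h5 : HasDerivAt γ v 0 := by
      rw [← h4]
      exact (h1.differentiable (by simp) 0).hasDerivAt
    have h6 : Λ.symm v ∈ Tan L z := by
      refine ⟨fun t => Λ.symm (γ t), hM.comp h1, fun t => ?_, ?_, ?_⟩
      · obtain ⟨w, hw, hw2⟩ := h2 t
        beta_reduce
        rw [← hw2, hΛ, Λ.symm_apply_apply]
        exact hw
      · beta_reduce
        rw [h3, hΛ, Λ.symm_apply_apply]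
      · exact ((Λ.symm : (E × E) →L[ℝ] (E × E)).hasFDerivAt.comp_hasDerivAt 0 h5).deriv
    have h7 := hex z hz _ h6
    have h8 : HasFDerivAt (fun z => f (Λ.symm z))
        ((fderiv ℝ f z).comp (Λ.symm : (E × E) →L[ℝ] (E × E))) (scl E c z) := by
      have h9 : HasFDerivAt f (fderiv ℝ f z) (Λ.symm (scl E c z)) := by
        rw [hΛ, Λ.symm_apply_apply]
        exact (hf.differentiable (by simp) z).hasFDerivAt
      exact h9.comp (scl E c z) (Λ.symm : (E × E) →L[ℝ] (E × E)).hasFDerivAt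
    rw [h8.fderiv]
    change fderiv ℝ f z (Λ.symm v) = _
    rw [h7]
    obtain ⟨w, rfl⟩ := Λ.surjective v
    rw [Λ.symm_apply_apply]
    change (inner ℝ z.2 w.1 : ℝ) = inner ℝ (c⁻¹ • z.2) (c • w.1)
    rw [inner_smul_left, inner_smul_right]
    simp only [conj_trivial]
    field_simp

/-- a Hamiltonian isotopy scales -/
theorem scale_ham {Q : Set E} {L : Set (E × E)} {c : ℝ} (hc : c ≠ 0)
    (h : HamIsotopicToZero ((fun x : E => c • x) '' Q) (scl E c '' L)) :
    HamIsotopicToZero Q L :=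
  H506.scale_ham' hc h

end Vale.Agent.P220.R2.H562.S
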