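import Vale.Agent.P220.R2.H562.S.Main
import Vale.Agent.P220.R2.H562.S.Defs
import Vale.Agent.P220.R2.H562.S.Scale

/-!
# The theorem for unit spheres
-/

open Set Filter Topology
open scoped ContDiff

set_option linter.unusedSectionVars false

namespace Vale.Agent.P220.R2.H562.S

open H57 H180 H562

variable {V : Type} [NormedAddCommGroup V] [InnerProductSpace ℝ V] [FiniteDimensional ℝ V]

theorem image_TwoSph : (fun x : DD V => c2⁻¹ • x) '' TwoSph V = QQ V := by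
  ext x
  constructor
  · rintro ⟨y, ⟨h1, h2⟩, rfl⟩
    exact ⟨norm_c2i h1, norm_c2i h2⟩
  · rintro ⟨h1, h2⟩
    refine ⟨c2 • x, ⟨norm_c2 h1, norm_c2 h2⟩, ?_⟩
    beta_reduce
    rw [smul_smul, inv_mul_cancel₀ c2_ne, one_smul]

/-- **Diagonal symmetry on the product of two unit spheres.** -/
theorem main_unit {m : ℕ} (hm : Module.finrank ℝ V = m + 1) (h2m : 2 ≤ m)
    {L : Set (WithLp 2 (V × V) × WithLp 2 (V × V))}
    (hL : IsClosedExactLagrangian (2 * m) (TwoSph V) L)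
    (hinv : ∀ g : V ≃ₗᵢ[ℝ] V, LinearMap.det (g.toLinearEquiv : V →ₗ[ℝ] V) = 1 → ∀ z ∈ L,
      (WithLp.toLp 2 (g z.1.fst, g z.1.snd), WithLp.toLp 2 (g z.2.fst, g z.2.snd)) ∈ L) :
    HamIsotopicToZero (TwoSph V) L := by
  have hc : c2⁻¹ ≠ 0 := inv_ne_zero c2_ne
  have hL1 := scale_lag hc hL
  rw [image_TwoSph, two_mul] at hL1
  have hI : DiagInv (scl (DD V) c2⁻¹ '' L) := by
    rintro g hg _ ⟨z, hz, rfl⟩
    refine ⟨(dg g z.1, dg g z.2), hinv g hg z hz, ?_⟩
    unfold scl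
    rw [map_smul, map_smul]
  refine scale_ham hc ?_
  rw [image_TwoSph]
  exact main_diag hm h2m hL1 hI

end Vale.Agent.P220.R2.H562.S
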