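import Vale.Agent.P220.R2.H562.S.Inv
import Vale.Agent.P220.R2.H562.S.RowT
import Vale.Agent.P220.R2.H506.RowD

/-!
# The fixed part of an invariant exact Lagrangian
-/

open Set Filter Topology
open scoped ContDiff

set_option linter.unusedSectionVars false

namespace Vale.Agent.P220.R2.H562.S

open H57 H180 H562

variable {V : Type} [NormedAddCommGroup V] [InnerProductSpace ℝ V] [FiniteDimensional ℝ V]

/-- `x ↦ (x, x')/√2`, where `x'` is the reflection of `x` -/
noncomputable def jm (u : V) : V →L[ℝ] DD V :=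
  LinearMap.toContinuousLinearMap
    { toFun := fun x => mk (c2⁻¹ • x) (c2⁻¹ • Refl u x)
      map_add' := fun x y => by
        refine ext_DD ?_ ?_
        · simp only [WithLp.add_fst, mk_fst, smul_add]
        · simp only [WithLp.add_snd, mk_snd, smul_add, map_add]
      map_smul' := fun c x => by
        refine ext_DD ?_ ?_
        · simp only [WithLp.smul_fst, mk_fst, RingHom.id_apply]
          module
        · simp only [WithLp.smul_snd, mk_snd, RingHom.id_apply, map_smul]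
          module }

theorem jm_fst (u x : V) : (jm u x).fst = c2⁻¹ • x := rfl
theorem jm_snd (u x : V) : (jm u x).snd = c2⁻¹ • Refl u x := rfl

/-- the left inverse -/
noncomputable def km : DD V →L[ℝ] V :=
  c2 • ((ContinuousLinearMap.fst ℝ V V).comp
      (WithLp.prodContinuousLinearEquiv 2 ℝ V V : DD V →L[ℝ] V × V))

theorem km_apply (x : DD V) : km x = c2 • x.fst := rfl

/-- the involution -/
noncomputable def sg (u : V) : DD V →L[ℝ] DD V :=
  LinearMap.toContinuousLinearMap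
    { toFun := fun x => mk (Refl u x.snd) (Refl u x.fst)
      map_add' := fun x y => by
        refine ext_DD ?_ ?_
        · simp only [WithLp.add_fst, WithLp.add_snd, mk_fst, map_add]
        · simp only [WithLp.add_snd, WithLp.add_fst, mk_snd, map_add]
      map_smul' := fun c x => by
        refine ext_DD ?_ ?_
        · simp only [WithLp.smul_fst, WithLp.smul_snd, mk_fst, RingHom.id_apply, map_smul]
        · simp only [WithLp.smul_snd, WithLp.smul_fst, mk_snd, RingHom.id_apply, map_smul] }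

theorem sg_fst (u : V) (x : DD V) : (sg u x).fst = Refl u x.snd := rfl
theorem sg_snd (u : V) (x : DD V) : (sg u x).snd = Refl u x.fst := rfl

theorem Refl_Refl (u x : V) : Refl u (Refl u x) = x := by
  unfold Refl
  exact Submodule.reflection_reflection _ _

theorem sg_sg (u : V) (x : DD V) : sg u (sg u x) = x := by
  refine ext_DD ?_ ?_
  · rw [sg_fst, sg_snd, Refl_Refl]
  · rw [sg_snd, sg_fst, Refl_Refl]

theorem km_jm (u x : V) : km (jm u x) = x := by
  rw [km_apply, jm_fst, smul_smul, mul_inv_cancel₀ c2_ne, one_smul]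

theorem sg_jm (u x : V) : sg u (jm u x) = jm u x := by
  refine ext_DD ?_ ?_
  · rw [sg_fst, jm_snd, jm_fst, map_smul, Refl_Refl]
  · rw [sg_snd, jm_snd, jm_fst, map_smul]

theorem jm_km {u : V} {x : DD V} (h : sg u x = x) : jm u (km x) = x := by
  have h1 : Refl u x.fst = x.snd := by
    have h2 := congrArg WithLp.snd h
    rwa [sg_snd] at h2
  refine ext_DD ?_ ?_
  · rw [jm_fst, km_apply, smul_smul, inv_mul_cancel₀ c2_ne, one_smul]
  · rw [jm_snd, km_apply, map_smul, smul_smul, inv_mul_cancel₀ c2_ne, one_smul, h1]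

theorem jm_inner (u x y : V) : (inner ℝ (jm u x) (jm u y) : ℝ) = inner ℝ x y := by
  rw [inner_DD, jm_fst, jm_snd, jm_fst, jm_snd]
  simp only [inner_smul_left, inner_smul_right, LinearIsometryEquiv.inner_map_map, conj_trivial]
  linear_combination (2 * (inner ℝ x y : ℝ)) * c2i_mul

theorem jm_norm (u x : V) : ‖jm u x‖ = ‖x‖ := by
  rw [← sq_eq_sq₀ (norm_nonneg _) (norm_nonneg _), ← real_inner_self_eq_norm_sq, jm_inner,
    real_inner_self_eq_norm_sq]

/-- the fixed part as a subset of `V × V` -/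
def Hf (u : V) (L : Set (DD V × DD V)) : Set (V × V) := {z | (jm u z.1, jm u z.2) ∈ L}

theorem tan_L {L : Set (DD V × DD V)} (hsub : L ⊆ Cot (QQ V)) {z v : DD V × DD V}
    (hv : v ∈ Tan L z) : inner ℝ z.1.fst v.1.fst = (0 : ℝ) ∧ inner ℝ z.1.snd v.1.snd = (0 : ℝ) ∧
      (v.1 = 0 → inner ℝ z.1.fst v.2.fst = (0 : ℝ)) := by
  obtain ⟨c, hc, hcS, h0, hdc⟩ := hv
  have h5 : HasDerivAt c v 0 := by
    rw [← hdc]
    exact (hc.differentiable (by simp) 0).hasDerivAt
  have h6 : HasDerivAt (fun t => (c t).1) v.1 0 :=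
    (hasFDerivAt_fst (𝕜 := ℝ) (p := c 0)).comp_hasDerivAt (0 : ℝ) h5
  have h7 : HasDerivAt (fun t => (c t).2) v.2 0 :=
    (hasFDerivAt_snd (𝕜 := ℝ) (p := c 0)).comp_hasDerivAt (0 : ℝ) h5
  have h8 : ((z.1, v.1) : DD V × DD V) ∈ Cot (QQ V) := by
    refine ⟨?_, fun t => (c t).1, hc.fst, fun t => (hsub (hcS t)).1, ?_, h6.deriv⟩
    · change z.1 ∈ QQ V
      rw [← h0]
      exact (hsub (hcS 0)).1
    · beta_reduce
      rw [h0]
  obtain ⟨h9, h10⟩ := cot_QQ h8
  refine ⟨h9, h10, fun hv1 => ?_⟩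
  have g1 : HasDerivAt (fun t => (c t).1.fst) v.1.fst 0 :=
    (((ContinuousLinearMap.fst ℝ V V).comp
      (WithLp.prodContinuousLinearEquiv 2 ℝ V V : DD V →L[ℝ] V × V)).hasFDerivAt).comp_hasDerivAt
      (0 : ℝ) h6
  have g2 : HasDerivAt (fun t => (c t).2.fst) v.2.fst 0 :=
    (((ContinuousLinearMap.fst ℝ V V).comp
      (WithLp.prodContinuousLinearEquiv 2 ℝ V V : DD V →L[ℝ] V × V)).hasFDerivAt).comp_hasDerivAt
      (0 : ℝ) h7
  have g3 := g1.inner ℝ g2
  have g4 : (fun t => inner ℝ (c t).1.fst (c t).2.fst : ℝ → ℝ) = fun _ => 0 := by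
    funext t
    exact (cot_QQ (hsub (hcS t))).1
  rw [g4, h0, hv1] at g3
  have g5 := g3.unique (hasDerivAt_const _ _)
  rw [WithLp.zero_fst, inner_zero_left, add_zero] at g5
  exact g5

/-- the dimension of the fixed part -/
theorem half_dim {m : ℕ} (hm : Module.finrank ℝ V = m + 1) {u : V} {L UL : Set (DD V × DD V)}
    {ρ : DD V × DD V → DD V × DD V} (hL : IsRet L UL ρ)
    (hd : ∀ z ∈ L, Module.finrank ℝ (Tn ρ z) = m + m)
    (hsub : L ⊆ Cot (QQ V)) {f : DD V × DD V → ℝ}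
    (hf : ContDiff ℝ ∞ f) (hex : ∀ z ∈ L, ∀ v ∈ Tn ρ z, fderiv ℝ f z v = inner ℝ z.2 v.1)
    (hRL : ∀ z ∈ L, (sg u z.1, sg u z.2) ∈ L) {z : DD V × DD V} (hz : z ∈ L)
    (hRz : (sg u z.1, sg u z.2) = z)
    {T : Submodule ℝ (DD V × DD V)} (hT : ∀ v, v ∈ T ↔ v ∈ Tn ρ z ∧ (sg u v.1, sg u v.2) = v) :
    Module.finrank ℝ T = m := by
  have hz1 : sg u z.1 = z.1 := congrArg Prod.fst hRz
  obtain ⟨n1, n2⟩ := (hsub hz).1
  set W : Submodule ℝ (DD V) := LinearMap.ker ((sg u : DD V →ₗ[ℝ] DD V) - LinearMap.id) with hW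
  set W' : Submodule ℝ (DD V) := LinearMap.ker ((sg u : DD V →ₗ[ℝ] DD V) + LinearMap.id) with hW'
  have mW : ∀ x, x ∈ W ↔ sg u x = x := fun x => by
    rw [hW, LinearMap.mem_ker]
    exact sub_eq_zero
  have mW' : ∀ x, x ∈ W' ↔ sg u x = -x := fun x => by
    rw [hW', LinearMap.mem_ker]
    exact add_eq_zero_iff_eq_neg
  have dW : Module.finrank ℝ W ≤ m + 1 := by
    rw [← hm]
    refine LinearMap.finrank_le_finrank_of_injective
      (f := (WithLp.fstₗ 2 ℝ V V : DD V →ₗ[ℝ] V) ∘ₗ W.subtype) ?_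
    rintro ⟨x, hx⟩ ⟨y, hy⟩ hxy
    have h1 : x.fst = y.fst := hxy
    have h2 : Refl u x.fst = x.snd := congrArg WithLp.snd ((mW x).1 hx)
    have h3 : Refl u y.fst = y.snd := congrArg WithLp.snd ((mW y).1 hy)
    exact Subtype.ext (ext_DD h1 (by rw [← h2, ← h3, h1]))
  have dW' : Module.finrank ℝ W' ≤ m + 1 := by
    rw [← hm]
    refine LinearMap.finrank_le_finrank_of_injective
      (f := (WithLp.fstₗ 2 ℝ V V : DD V →ₗ[ℝ] V) ∘ₗ W'.subtype) ?_
    rintro ⟨x, hx⟩ ⟨y, hy⟩ hxy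
    have h1 : x.fst = y.fst := hxy
    have h2 : Refl u x.fst = -x.snd := congrArg WithLp.snd ((mW' x).1 hx)
    have h3 : Refl u y.fst = -y.snd := congrArg WithLp.snd ((mW' y).1 hy)
    exact Subtype.ext (ext_DD h1 (neg_injective (by rw [← h2, ← h3, h1])))
  refine H506.row_D (T := Tn ρ z) (R := sg u) (W := W) (W' := W') (k := m) (k' := m)
    (ξ := z.1) (ξ' := mk z.1.fst (-z.1.snd))
    (fun v hv w hw => isotropic hL hf hex hz hv hw) (sg_sg u) ?_ mW mW' dW dW' (hd z hz)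
    ((mW _).2 hz1) ((mW' _).2 ?_) ?_ ?_ ?_ ?_ hT
  · intro v hv
    rw [← hL.mem_Tan hz] at hv ⊢
    obtain ⟨c, hc, hcS, h0, hdc⟩ := hv
    have h1 : HasDerivAt c v 0 := by
      rw [← hdc]
      exact (hc.differentiable (by simp) 0).hasDerivAt
    refine ⟨fun t => (sg u).prodMap (sg u) (c t), ((sg u).prodMap (sg u)).contDiff.comp hc,
      fun t => hRL _ (hcS t), ?_, ?_⟩
    · beta_reduce
      rw [h0]
      exact hRz
    · exact (((sg u).prodMap (sg u)).hasFDerivAt.comp_hasDerivAt 0 h1).deriv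
  · have h1 : Refl u z.1.snd = z.1.fst := congrArg WithLp.fst hz1
    have h2 : Refl u z.1.fst = z.1.snd := congrArg WithLp.snd hz1
    refine ext_DD ?_ ?_
    · rw [sg_fst, WithLp.neg_fst, mk_snd, mk_fst, map_neg, h1]
    · rw [sg_snd, WithLp.neg_snd, mk_snd, mk_fst, h2, neg_neg]
  · intro v hv
    obtain ⟨h1, h2, -⟩ := tan_L hsub ((hL.mem_Tan hz).2 hv)
    rw [inner_DD, h1, h2, add_zero]
  · intro v hv
    obtain ⟨h1, h2, -⟩ := tan_L hsub ((hL.mem_Tan hz).2 hv)
    rw [inner_DD, mk_fst, mk_snd, inner_neg_left, h1, h2, neg_zero, add_zero]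
  · intro hv
    have h3 := (tan_L hsub ((hL.mem_Tan hz).2 hv)).2.2 rfl
    have h4 : (inner ℝ z.1.fst z.1.fst : ℝ) = 0 := h3
    rw [real_inner_self_eq_norm_sq, n1] at h4
    norm_num at h4
  · intro hv
    have h3 := (tan_L hsub ((hL.mem_Tan hz).2 hv)).2.2 rfl
    have h4 : (inner ℝ z.1.fst z.1.fst : ℝ) = 0 := h3
    rw [real_inner_self_eq_norm_sq, n1] at h4
    norm_num at h4

/-- The fixed part is a closed exact Lagrangian in the cotangent bundle of a sphere. -/
theorem half_closed {m : ℕ} (hm : Module.finrank ℝ V = m + 1) {u : V}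
    {L : Set (DD V × DD V)} (hL : IsClosedExactLagrangian (m + m) (QQ V) L)
    (hRL : ∀ z ∈ L, (sg u z.1, sg u z.2) ∈ L) (hne : (Hf u L).Nonempty) :
    IsClosedExactLagrangian m (Sph V) (Hf u L) := by
  obtain ⟨U, ρ, hρ, hd⟩ := exists_ret hL.mfd hL.compact
  obtain ⟨f, hf, hex⟩ := hL.exact
  set R : (DD V × DD V) →L[ℝ] (DD V × DD V) := (sg u).prodMap (sg u) with hR
  set ι : (V × V) →L[ℝ] (DD V × DD V) := (jm u).prodMap (jm u) with hι
  set κ : (DD V × DD V) →L[ℝ] (V × V) := km.prodMap km with hκ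
  have hRR : ∀ v, R (R v) = v := fun v => Prod.ext (sg_sg u _) (sg_sg u _)
  have hSm : IsSubmanifold m {z | z ∈ L ∧ R z = z} :=
    fix_submanifold hρ hRR hRL fun z hz hRz T hT =>
      half_dim hm hρ hd hL.sub hf (fun z hz v hv => hex z hz v ((hρ.mem_Tan hz).2 hv)) hRL hz
        hRz hT
  have cS : IsCompact {z | z ∈ L ∧ R z = z} :=
    hL.compact.inter_right (isClosed_eq R.continuous continuous_id)
  have hsub : ∀ x ∈ {z | z ∈ L ∧ R z = z}, ι (κ x) = x := by
    rintro x ⟨-, hx⟩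
    exact Prod.ext (jm_km (congrArg Prod.fst hx)) (jm_km (congrArg Prod.snd hx))
  have hpre : ι ⁻¹' {z | z ∈ L ∧ R z = z} = Hf u L := by
    ext z
    constructor
    · rintro ⟨h1, -⟩
      exact h1
    · intro h1
      exact ⟨h1, Prod.ext (sg_jm u _) (sg_jm u _)⟩
  have hκι : ∀ x, κ (ι x) = x := fun x => Prod.ext (km_jm u _) (km_jm u _)
  have h1 := row_T ι κ hκι hSm cS hsub
  rw [hpre] at h1
  refine ⟨h1, ?_, hne, ?_, fun z => f (ι z), hf.comp ι.contDiff, ?_⟩
  · have h2 : Hf u L = κ '' {z | z ∈ L ∧ R z = z} := by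
      rw [← hpre]
      ext z
      constructor
      · intro hz
        exact ⟨ι z, hz, hκι z⟩
      · rintro ⟨x, hx, rfl⟩
        change ι (κ x) ∈ {z | z ∈ L ∧ R z = z}
        rw [hsub x hx]
        exact hx
    rw [h2]
    exact cS.image κ.continuous
  · intro z hz
    have h2 := hL.sub hz
    obtain ⟨h3, h4⟩ := cot_QQ h2
    rw [cot_sph]
    constructor
    · rw [← jm_norm u]
      exact mem_Sph.1 (QQ_sub h2.1)
    · rw [← jm_inner u, inner_DD, h3, h4, add_zero]
  · rintro z hz v ⟨c, hc, hcS, h0, hdc⟩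
    have h2 : HasDerivAt c v 0 := by
      rw [← hdc]
      exact (hc.differentiable (by simp) 0).hasDerivAt
    have h3 : ι v ∈ Tan L (ι z) := by
      refine ⟨fun t => ι (c t), ι.contDiff.comp hc, fun t => hcS t, ?_, ?_⟩
      · beta_reduce
        rw [h0]
      · exact (ι.hasFDerivAt.comp_hasDerivAt 0 h2).deriv
    have h4 := hex (ι z) hz (ι v) h3
    have h5 : HasFDerivAt (fun z => f (ι z)) ((fderiv ℝ f (ι z)).comp ι) z :=
      (hf.differentiable (by simp) (ι z)).hasFDerivAt.comp z ι.hasFDerivAt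
    rw [h5.fderiv]
    change fderiv ℝ f (ι z) (ι v) = _
    rw [h4]
    exact jm_inner u _ _

end Vale.Agent.P220.R2.H562.S
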