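import Vale.Agent.P220.R2.H562.Ex

/-!
# The zero section over a union of great circles is Hamiltonian isotopic to the Lagrangian over an arc
-/

open Set Filter Topology
open scoped ContDiff

set_option linter.unusedSectionVars false

namespace Vale.Agent.P220.R2.H562.S

open H57 H180 H562

variable {E : Type} [NormedAddCommGroup E] [InnerProductSpace ℝ E] [FiniteDimensional ℝ E]

/-- the great circle through `e` and `u` lies in `Q`, and `P` kills `e` and fixes `u` -/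
structure Adm (P : E →L[ℝ] E) (Q : Set E) (e u : E) : Prop where
  ne : ‖e‖ = 1
  Pe : P e = 0
  nu : ‖u‖ = 1
  Pu : P u = u
  circ : ∀ a b : ℝ, a ^ 2 + b ^ 2 = 1 → a • e + b • u ∈ Q

namespace Adm

variable {P : E →L[ℝ] E} {Q : Set E} {e u : E}

theorem orth (h : Adm P Q e u) (hP : IsPr P) : Orth e u :=
  ⟨h.ne, h.nu, by rw [← h.Pu, ← hP.symm, h.Pe, inner_zero_left]⟩

theorem mem (h : Adm P Q e u) (hP : IsPr P) {x : E} (hx : InPl e u x) (h1 : ‖x‖ = 1) : x ∈ Q := by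
  rw [hx]
  refine h.circ _ _ ?_
  have h2 := (h.orth hP).sq_sum hx
  rw [h1] at h2
  linarith

theorem cot (h : Adm P Q e u) (hP : IsPr P) {z : E × E} (h1 : InPl e u z.1) (h2 : InPl e u z.2)
    (h3 : ‖z.1‖ = 1) (h4 : inner ℝ z.1 z.2 = (0 : ℝ)) : z ∈ Cot Q := by
  refine ⟨h.mem hP h1 h3, ?_⟩
  obtain ⟨c, c1, c2, c3, c4, c5⟩ := curve_sph h3 h4
  refine ⟨c, c1, fun t => ?_, c4, c5.deriv⟩
  obtain ⟨a, b, hab⟩ := c3 t
  refine h.mem hP ?_ (mem_Sph.1 (c2 t))
  rw [hab]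
  exact (h1.smul' a).add (h2.smul' b)

end Adm

/-- the zero section over `Q` -/
def ZQ (Q : Set E) : Set (E × E) := {z | z.1 ∈ Q ∧ z.2 = 0}

theorem exists_ZQ_ret {Q U : Set E} {r : E → E} (hr : IsRet Q U r)
    (hQs : Q ⊆ Sph E) : ∃ (U : Set (E × E)) (ρ : E × E → E × E), IsRet (ZQ Q) U ρ ∧
    ∀ z ∈ ZQ Q, ∀ v ∈ Tn ρ z, v.2 = 0 ∧ inner ℝ z.1 v.1 = (0 : ℝ) := by
  have hS : ContDiff ℝ ∞ fun z : E × E => ((r z.1, 0) : E × E) :=
    (hr.smooth.comp contDiff_fst).prodMk contDiff_const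
  have hRet : IsRet (ZQ Q) (U ×ˢ univ) fun z => (r z.1, 0) := by
    refine ⟨?_, hr.isOpen.prod isOpen_univ, ?_, hS, ?_, ?_⟩
    · exact (hr.isClosed.preimage continuous_fst).inter (isClosed_singleton.preimage continuous_snd)
    · intro z hz
      exact ⟨hr.sub hz.1, mem_univ _⟩
    · intro z hz
      exact ⟨hr.maps _ hz.1, rfl⟩
    · rintro ⟨q, p⟩ ⟨h1, h2⟩
      simp only at h1 h2
      subst h2
      simp only [hr.fix q h1]
  refine ⟨_, _, hRet, fun z hz v hv => ?_⟩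
  have h1 : HasFDerivAt (fun z : E × E => ((r z.1, 0) : E × E))
      (((fderiv ℝ r z.1).comp (ContinuousLinearMap.fst ℝ E E)).prod 0) z :=
    ((hr.hasFDerivAt z.1).comp z hasFDerivAt_fst).prodMk (hasFDerivAt_const _ _)
  rw [mem_Tn, h1.fderiv] at hv
  have h2 : fderiv ℝ r z.1 v.1 = v.1 := congrArg Prod.fst hv
  have h3 : (0 : E) = v.2 := congrArg Prod.snd hv
  refine ⟨h3.symm, ?_⟩
  have h4 : v.1 ∈ Tan Q z.1 := (hr.mem_Tan hz.1).2 h2
  obtain ⟨c, hc, hcS, h0, hdc⟩ := h4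
  exact (tan_sph (mem_Sph.1 (hQs hz.1))).1 ⟨c, hc, fun t => hQs (hcS t), h0, hdc⟩

/-- **The zero section is Hamiltonian isotopic to the Lagrangian over an arc.** -/
theorem ham_of_arcQ {P : E →L[ℝ] E} (hP : IsPr P) {Q UQ : Set E} {r : E → E} (hr : IsRet Q UQ r)
    (cQ : IsCompact Q) (hQs : Q ⊆ Sph E) (hQA : ∀ q ∈ Q, ∃ e u, Adm P Q e u ∧ InPl e u q)
    {c : ℝ → ℂ} (hc : IsArc c) {L : Set (E × E)}
    (hL : ∀ z, z ∈ L ↔ ‖z.1‖ = 1 ∧ inner ℝ z.1 z.2 = (0 : ℝ) ∧
      (∃ e u, Adm P Q e u ∧ InPl e u z.1 ∧ InPl e u z.2) ∧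
      ∃ τ ∈ Icc (0 : ℝ) 1, c τ = wf P z) : HamIsotopicToZero Q L := by
  obtain ⟨C, A, B, hF⟩ := exists_fam2 hc
  obtain ⟨G, hG, hG1⟩ := exists_invsqrt
  obtain ⟨UK, ρ, hρ, hTn⟩ := exists_ZQ_ret hr hQs
  have hA := hF.hA
  have hB := hF.hB
  have cK : IsCompact (ZQ Q) := by
    have : ZQ Q = Q ×ˢ {0} := rfl
    rw [this]
    exact cQ.prod isCompact_singleton
  have hmS : ∀ z ∈ ZQ Q, ‖z.1‖ = 1 := fun z hz => mem_Sph.1 (hQs hz.1)
  have hpt : ∀ s, ∀ z ∈ ZQ Q, Pt2 P C A B s z := fun s z hz => hF.pt hP s (hmS z hz)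
  -- the isotopy stays in the planes
  have hcomb : ∀ {e u : E}, Adm P Q e u → ∀ {q : E}, InPl e u q → ∀ a b : ℝ,
      InPl e u (a • P q + b • (q - P q)) := by
    intro e u hA' q hq a b
    have ho := hA'.orth hP
    have h2 : P q = (inner ℝ u q : ℝ) • u := by
      conv_lhs => rw [hq]
      rw [map_add, map_smul, map_smul, hA'.Pe, hA'.Pu, smul_zero, zero_add]
    have h3 : q - P q = (inner ℝ e q : ℝ) • e := by
      rw [h2, sub_eq_iff_eq_add]
      exact hq
    rw [h3, h2, smul_smul, smul_smul, add_comm]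
    exact InPl.smul ho.v1 ho.w1 ho.vw _ _ rfl
  have hpl1 : ∀ s, ∀ q ∈ Q, ∃ e u, Adm P Q e u ∧ InPl e u (iso2 P G A B (s, (q, (0 : E)))).1 ∧
      InPl e u (iso2 P G A B (s, (q, (0 : E)))).2 := by
    intro s q hq
    obtain ⟨e, u, hA', hqp⟩ := hQA q hq
    refine ⟨e, u, hA', ?_, ?_⟩
    · have : (iso2 P G A B (s, (q, (0 : E)))).1 = G (1 + ‖xi P A B (s, (q, (0 : E)))‖ ^ 2) •
          ((A (s, ta P q)).re • P q + (B (s, ta P q)).re • (q - P q)) := rfl
      rw [this]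
      exact (hcomb hA' hqp _ _).smul' _
    · exact hcomb hA' hqp _ _
  obtain ⟨H, φ, hH, hφ, hφι⟩ := H481.ham_ext hr cQ hρ cK (iso2_smooth (P := P) hG hA hB)
    (fun s z hz => by
      obtain ⟨q, p⟩ := z
      obtain ⟨hq, hp⟩ := hz
      simp only at hq hp
      subst hp
      obtain ⟨e, u, hA', h1, h2⟩ := hpl1 s q hq
      exact hA'.cot hP h1 h2 ((hpt s (q, 0) ⟨hq, rfl⟩).norm hG1) (hpt s (q, 0) ⟨hq, rfl⟩).orth)
    (fun s z hz z' hz' h => by
      have p := hpt s z hz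
      have p' := hpt s z' hz'
      have hy : xi P A B (s, z) = xi P A B (s, z') := congrArg Prod.snd h
      have ha : xr P A B (s, z) = xr P A B (s, z') := by
        rw [p.inv hG1, p'.inv hG1, h]
      have h4 := Pt2.inj_tau hP hF (hmS z hz) (hmS z' hz') p p' ha hy
      exact Prod.ext h4 (by rw [hz.2, hz'.2]))
    (fun s z hz v hv h => by
      obtain ⟨hv2, hv1⟩ := hTn z hz v hv
      have hy : fderiv ℝ (xi P A B) (s, z) (0, v) = 0 := by
        rw [← diso2_snd hG hA hB, h]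
        rfl
      obtain ⟨k, hk, hk2⟩ := diso2_fst (P := P) hG hA hB s z v
      have hGne : G (1 + ‖xi P A B (s, z)‖ ^ 2) ≠ 0 := by
        rw [(hpt s z hz).Gval hG1]
        exact inv_ne_zero (Real.sqrt_pos.2 (by positivity)).ne'
      have ha : fderiv ℝ (xr P A B) (s, z) (0, v) = 0 := by
        rw [h, hk hy, zero_smul, zero_add] at hk2
        exact (smul_eq_zero.1 hk2.symm).resolve_left hGne
      exact Prod.ext (imm_aux hP hF (hmS z hz) ha hy) hv2)
    (prim2_smooth (P := P) hG hA hB)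
    (fun s z hz v hv => by
      obtain ⟨hv2, hv1⟩ := hTn z hz v hv
      have hq := hmS z hz
      have p := hpt s z hz
      obtain ⟨k, -, hk2⟩ := diso2_fst (P := P) hG hA hB s z v
      have hay := p.ay
      rw [real_inner_comm] at hay
      rw [dprim2 hP hG hA hB, hk2, inner_add_right, inner_smul_right, inner_smul_right]
      have h0 : (iso2 P G A B (s, z)).2 = xi P A B (s, z) := rfl
      rw [h0, hay, mul_zero, zero_add, dxr hP hA hB]
      have hy : xi P A B (s, z) = (A (s, ta P z.1)).im • P z.1 +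
        (B (s, ta P z.1)).im • (z.1 - P z.1) := rfl
      have pp : (inner ℝ (P z.1) (P z.1) : ℝ) = ta P z.1 := by rw [hP.pp]; rfl
      have pv : (inner ℝ (P z.1) (P v.1) : ℝ) = inner ℝ (P z.1) v.1 := hP.pp _ _
      have qq : (inner ℝ (z.1 - P z.1) (z.1 - P z.1) : ℝ) = 1 - ta P z.1 := by
        rw [hP.qq, real_inner_self_eq_norm_sq, hq]
        unfold ta
        ring
      have qv : (inner ℝ (z.1 - P z.1) (v.1 - P v.1) : ℝ) = -inner ℝ (P z.1) v.1 := by
        rw [hP.qq, hv1]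
        ring
      have hG3 : G (1 + ‖xi P A B (s, z)‖ ^ 2) = G (1 + ta P z.1 * (A (s, ta P z.1)).im ^ 2 +
          (1 - ta P z.1) * (B (s, ta P z.1)).im ^ 2) := by
        rw [p.y2, add_assoc]
      rw [hG3, hy]
      simp only [inner_add_left, inner_add_right, inner_smul_left, inner_smul_right, hP.pq, hP.qp,
        pp, pv, qq, qv, dens2]
      simp
      ring)
  refine ⟨H, φ, hH, hφ, ?_⟩
  -- the end points
  have h0 : ∀ z ∈ ZQ Q, iso2 P G A B (0, z) = z := by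
    intro z hz
    have hq := hmS z hz
    have hτ := hP.ta_mem hq
    have hA0 := hF.A0 _ hτ
    have hB0 := hF.B0 _ hτ
    have hy : xi P A B (0, z) = 0 := by
      have : xi P A B (0, z) = (A (0, ta P z.1)).im • P z.1 +
        (B (0, ta P z.1)).im • (z.1 - P z.1) := rfl
      rw [this, hA0, hB0]
      simp
    have ha : xr P A B (0, z) = z.1 := by
      have : xr P A B (0, z) = (A (0, ta P z.1)).re • P z.1 +
        (B (0, ta P z.1)).re • (z.1 - P z.1) := rfl
      rw [this, hA0, hB0]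
      simp
    have : iso2 P G A B (0, z) =
      (G (1 + ‖xi P A B (0, z)‖ ^ 2) • xr P A B (0, z), xi P A B (0, z)) := rfl
    rw [this, hy, ha, hG1 _ (by simp; norm_num)]
    simp only [norm_zero]
    refine Prod.ext ?_ hz.2.symm
    simp
  have h1 : ∀ z, z ∈ L ↔ ∃ q, q ∈ Q ∧ iso2 P G A B (1, (q, 0)) = z := by
    intro z
    rw [hL]
    constructor
    · rintro ⟨hz1, hz2, ⟨e, u, hA', hu1, hu2⟩, τ, hτ, hcτ⟩
      obtain ⟨he, hPe, hu, hPu, hcirc⟩ := hA'
      have heu : inner ℝ e u = (0 : ℝ) := by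
        rw [← hPu, ← hP.symm, hPe, inner_zero_left]
      set a₀ : ℝ := √(1 + ‖z.2‖ ^ 2) * inner ℝ e z.1 with ha₀
      set a₁ : ℝ := √(1 + ‖z.2‖ ^ 2) * inner ℝ u z.1 with ha₁
      set y₀ : ℝ := inner ℝ e z.2 with hy₀
      set y₁ : ℝ := inner ℝ u z.2 with hy₁
      have ee : inner ℝ e e = (1 : ℝ) := e_e he
      have uu : inner ℝ u u = (1 : ℝ) := e_e hu
      have ue : inner ℝ u e = (0 : ℝ) := by rw [real_inner_comm]; exact heu
      have hsq : 0 < 1 + ‖z.2‖ ^ 2 := by positivity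
      have hs2 : √(1 + ‖z.2‖ ^ 2) ^ 2 = 1 + ‖z.2‖ ^ 2 := Real.sq_sqrt hsq.le
      have n1 : (inner ℝ e z.1 : ℝ) ^ 2 + (inner ℝ u z.1 : ℝ) ^ 2 = 1 := by
        have h2 : ‖z.1‖ ^ 2 = 1 := by rw [hz1]; norm_num
        rw [← real_inner_self_eq_norm_sq] at h2
        have h3 : (inner ℝ z.1 z.1 : ℝ) = inner ℝ ((inner ℝ e z.1 : ℝ) • e + (inner ℝ u z.1 : ℝ) • u)
          ((inner ℝ e z.1 : ℝ) • e + (inner ℝ u z.1 : ℝ) • u) := by rw [← hu1]
        rw [h3] at h2
        simp only [inner_add_left, inner_add_right, inner_smul_left, inner_smul_right, ee, uu, ue,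
          heu] at h2
        simp at h2
        linarith
      have n2 : y₀ ^ 2 + y₁ ^ 2 = ‖z.2‖ ^ 2 := by
        rw [← real_inner_self_eq_norm_sq]
        have h3 : (inner ℝ z.2 z.2 : ℝ) = inner ℝ (y₀ • e + y₁ • u) (y₀ • e + y₁ • u) := by
          rw [← hu2]
        rw [h3]
        simp only [inner_add_left, inner_add_right, inner_smul_left, inner_smul_right, ee, uu, ue,
          heu]
        simp
        ring
      have n3 : (inner ℝ e z.1 : ℝ) * y₀ + (inner ℝ u z.1 : ℝ) * y₁ = 0 := by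
        have h3 : (inner ℝ z.1 z.2 : ℝ) = inner ℝ ((inner ℝ e z.1 : ℝ) • e + (inner ℝ u z.1 : ℝ) • u)
          (y₀ • e + y₁ • u) := by rw [← hu1, ← hu2]
        rw [h3] at hz2
        simp only [inner_add_left, inner_add_right, inner_smul_left, inner_smul_right, ee, uu, ue,
          heu] at hz2
        simp at hz2
        linarith
      have hPz1 : P z.1 = (inner ℝ u z.1 : ℝ) • u := by
        conv_lhs => rw [hu1]
        rw [map_add, map_smul, map_smul, hPe, hPu, smul_zero, zero_add]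
      have hPz2 : P z.2 = y₁ • u := by
        conv_lhs => rw [hu2]
        rw [map_add, map_smul, map_smul, hPe, hPu, smul_zero, zero_add]
      have r1 : a₀ ^ 2 + a₁ ^ 2 = 1 + (y₀ ^ 2 + y₁ ^ 2) := by
        rw [ha₀, ha₁, mul_pow, mul_pow, ← mul_add, n1, mul_one, hs2, n2]
      have r2 : a₀ * y₀ + a₁ * y₁ = 0 := by
        rw [ha₀, ha₁]
        linear_combination √(1 + ‖z.2‖ ^ 2) * n3
      have r1' : (a₀ : ℂ) ^ 2 + (a₁ : ℂ) ^ 2 = 1 + ((y₀ : ℂ) ^ 2 + (y₁ : ℂ) ^ 2) := by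
        exact_mod_cast r1
      have r2' : (a₀ : ℂ) * y₀ + (a₁ : ℂ) * y₁ = 0 := by exact_mod_cast r2
      have hw : c τ = 1 - 2 * ((a₁ : ℂ) + (y₁ : ℂ) * Complex.I) ^ 2 := by
        rw [hcτ]
        unfold wf
        rw [hPz1, hPz2, norm_smul, norm_smul, hu, inner_smul_left, inner_smul_right, uu, mul_one,
          mul_one, Real.norm_eq_abs, Real.norm_eq_abs, sq_abs, sq_abs]
        have e1 : (1 + ‖z.2‖ ^ 2) * (inner ℝ u z.1 : ℝ) ^ 2 = a₁ ^ 2 := by
          rw [ha₁, mul_pow, hs2]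
        have e2 : 2 * (√(1 + ‖z.2‖ ^ 2) * ((starRingEnd ℝ) (inner ℝ u z.1 : ℝ) * (y₁ * 1))) =
            2 * (a₁ * y₁) := by
          rw [ha₁]
          simp only [conj_trivial]
          ring
        rw [e1, e2]
        push_cast
        linear_combination (2 * (y₁ : ℂ) ^ 2) * Complex.I_sq
      have hsum1 : ((a₀ : ℂ) + (y₀ : ℂ) * Complex.I) ^ 2 +
          ((a₁ : ℂ) + (y₁ : ℂ) * Complex.I) ^ 2 = 1 := by
        linear_combination r1' + 2 * Complex.I * r2' +
          ((y₁ : ℂ) ^ 2 + (y₀ : ℂ) ^ 2) * Complex.I_sq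
      have hA2 : ((a₁ : ℂ) + (y₁ : ℂ) * Complex.I) ^ 2 = τ * A (1, τ) ^ 2 := by
        have h2 := hF.relA 1 τ hτ
        rw [hF.C1, hw] at h2
        linear_combination h2 / 2
      have hB2 : ((a₀ : ℂ) + (y₀ : ℂ) * Complex.I) ^ 2 = (1 - τ) * B (1, τ) ^ 2 := by
        have h2 := hF.relB 1 τ hτ
        rw [hF.C1, hw] at h2
        linear_combination h2 / 2 + hsum1
      have hroot : ∀ (m x y : ℝ) (b : ℂ), 0 ≤ m →
          ((x : ℂ) + (y : ℂ) * Complex.I) ^ 2 = m * b ^ 2 →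
          ∃ m' : ℝ, m' ^ 2 = m ∧ x = m' * b.re ∧ y = m' * b.im := by
        intro m x y b hm hxy
        have hm2 : √m ^ 2 = m := Real.sq_sqrt hm
        have hm2' : ((√m : ℝ) : ℂ) ^ 2 = (m : ℂ) := by exact_mod_cast hm2
        have h2 : ((x : ℂ) + (y : ℂ) * Complex.I) ^ 2 = (((√m : ℝ) : ℂ) * b) ^ 2 := by
          rw [hxy, mul_pow, hm2']
        rcases sq_eq_sq_iff_eq_or_eq_neg.1 h2 with h3 | h3
        · refine ⟨√m, hm2, ?_, ?_⟩
          · have := congrArg Complex.re h3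
            simpa using this
          · have := congrArg Complex.im h3
            simpa using this
        · refine ⟨-√m, by rw [neg_sq, hm2], ?_, ?_⟩
          · have := congrArg Complex.re h3
            simpa using this
          · have := congrArg Complex.im h3
            simpa using this
      obtain ⟨m₁, hm₁, hr₁, hi₁⟩ := hroot τ a₁ y₁ _ hτ.1 hA2
      obtain ⟨m₀, hm₀, hr₀, hi₀⟩ := hroot (1 - τ) a₀ y₀ (B (1, τ)) (by linarith [hτ.2]) (by
        rw [hB2]; push_cast; ring)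
      set q : E := m₀ • e + m₁ • u with hq
      have hPq : P q = m₁ • u := by
        rw [hq, map_add, map_smul, map_smul, hPe, hPu, smul_zero, zero_add]
      have hQq : q - P q = m₀ • e := by rw [hPq, hq]; abel
      have hqn : ‖q‖ = 1 := by
        rw [← sq_eq_sq₀ (norm_nonneg _) zero_le_one, ← real_inner_self_eq_norm_sq, hq]
        simp only [inner_add_left, inner_add_right, inner_smul_left, inner_smul_right, ee, uu, ue,
          heu]
        simp
        linear_combination hm₁ + hm₀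
      have htq : ta P q = τ := by
        unfold ta
        rw [hPq, hq]
        simp only [inner_add_right, inner_smul_left, inner_smul_right, uu, ue]
        simp
        linear_combination hm₁
      refine ⟨q, hcirc _ _ (by linear_combination hm₁ + hm₀), ?_⟩
      have p := hF.pt hP 1 (z := (q, (0 : E))) hqn
      have hy : xi P A B (1, (q, (0 : E))) = z.2 := by
        have : xi P A B (1, (q, (0 : E))) = (A (1, ta P q)).im • P q +
          (B (1, ta P q)).im • (q - P q) := rfl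
        rw [this, htq, hQq, hPq, smul_smul, smul_smul, mul_comm _ m₁, mul_comm _ m₀, ← hi₁, ← hi₀,
          add_comm]
        exact hu2.symm
      have ha : xr P A B (1, (q, (0 : E))) = √(1 + ‖z.2‖ ^ 2) • z.1 := by
        have : xr P A B (1, (q, (0 : E))) = (A (1, ta P q)).re • P q +
          (B (1, ta P q)).re • (q - P q) := rfl
        rw [this, htq, hQq, hPq, smul_smul, smul_smul, mul_comm _ m₁, mul_comm _ m₀, ← hr₁, ← hr₀,
          add_comm, ha₀, ha₁]
        conv_rhs => rw [hu1]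
        rw [smul_add, smul_smul, smul_smul]
      have : iso2 P G A B (1, (q, (0 : E))) = (G (1 + ‖xi P A B (1, (q, (0 : E)))‖ ^ 2) •
        xr P A B (1, (q, (0 : E))), xi P A B (1, (q, (0 : E)))) := rfl
      rw [this, p.Gval hG1, hy, ha, smul_smul, inv_mul_cancel₀ (Real.sqrt_pos.2 hsq).ne', one_smul]
    · rintro ⟨q, hq, rfl⟩
      have hq1 := mem_Sph.1 (hQs hq)
      have p := hF.pt hP 1 (z := (q, (0 : E))) hq1
      have hτ := hP.ta_mem hq1
      refine ⟨p.norm hG1, p.orth, hpl1 1 q hq, ta P q, hτ, ?_⟩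
      rw [p.wf hG1, hF.C1]
  ext w
  rw [h1]
  constructor
  · rintro ⟨y, hy, rfl⟩
    have hyZ : y ∈ ZQ Q := hy
    refine ⟨y.1, hyZ.1, ?_⟩
    have h2 := hφι 1 ⟨zero_le_one, le_refl 1⟩ y hyZ
    rw [h0 y hyZ] at h2
    rw [h2]
    congr 2
    exact Prod.ext rfl hyZ.2.symm
  · rintro ⟨q, hq, rfl⟩
    have hyZ : ((q, 0) : E × E) ∈ ZQ Q := ⟨hq, rfl⟩
    refine ⟨(q, 0), hyZ, ?_⟩
    have h2 := hφι 1 ⟨zero_le_one, le_refl 1⟩ (q, 0) hyZ
    rw [h0 _ hyZ] at h2
    exact h2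

end Vale.Agent.P220.R2.H562.S
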