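import Vale.Agent.P220.R2.H562.S.Base
import Vale.Agent.P220.R2.H506.RowM

/-!
# The planes of an exact Lagrangian that is invariant under the diagonal rotations
-/

open Set Filter Topology
open scoped ContDiff

set_option linter.unusedSectionVars false

namespace Vale.Agent.P220.R2.H562.S

open H57 H180 H562

variable {V : Type} [NormedAddCommGroup V] [InnerProductSpace ℝ V] [FiniteDimensional ℝ V]

/-- invariance under the diagonal rotations -/
def DiagInv (L : Set (DD V × DD V)) : Prop :=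
  ∀ g : V ≃ₗᵢ[ℝ] V, LinearMap.det (g.toLinearEquiv : V →ₗ[ℝ] V) = 1 →
    ∀ z ∈ L, (dg g z.1, dg g z.2) ∈ L

theorem inPl_of {e u : V} (h : Orth e u) {x : DD V} {s t : ℝ}
    (ha : (1 / 2 : ℝ) • (x.fst + x.snd) = s • e) (hb : (1 / 2 : ℝ) • (x.fst - x.snd) = t • u) :
    InPl (eD e) (uD u) x := by
  have ho := (adm h).orth isPr_PA
  refine InPl.smul ho.v1 ho.w1 ho.vw (c2 * s) (c2 * t) ?_
  refine ext_DD ?_ ?_
  · rw [WithLp.add_fst, WithLp.smul_fst, WithLp.smul_fst, eD_fst, uD_fst, smul_smul, smul_smul]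
    have e1 : c2 * s * c2⁻¹ = s := by field_simp [c2_ne]
    have e2 : c2 * t * c2⁻¹ = t := by field_simp [c2_ne]
    rw [e1, e2, ← ha, ← hb]
    module
  · rw [WithLp.add_snd, WithLp.smul_snd, WithLp.smul_snd, eD_snd, uD_snd, smul_neg, smul_smul,
      smul_smul]
    have e1 : c2 * s * c2⁻¹ = s := by field_simp [c2_ne]
    have e2 : c2 * t * c2⁻¹ = t := by field_simp [c2_ne]
    rw [e1, e2, ← ha, ← hb]
    module

/-- the parts of a vector of the plane -/
theorem inPl_parts {e u : V} {x : DD V} (hx : InPl (eD e) (uD u) x) :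
    ∃ s t : ℝ, x.fst = s • e + t • u ∧ x.snd = s • e - t • u := by
  refine ⟨(inner ℝ (eD e) x : ℝ) * c2⁻¹, (inner ℝ (uD u) x : ℝ) * c2⁻¹, ?_, ?_⟩
  · conv_lhs => rw [hx]
    rw [WithLp.add_fst, WithLp.smul_fst, WithLp.smul_fst, eD_fst, uD_fst, smul_smul, smul_smul]
  · conv_lhs => rw [hx]
    rw [WithLp.add_snd, WithLp.smul_snd, WithLp.smul_snd, eD_snd, uD_snd, smul_neg, smul_smul,
      smul_smul, sub_eq_add_neg]

/-- every point of `Q` lies on a great circle of `Q` -/
theorem exists_pl (h2 : 2 ≤ Module.finrank ℝ V) {x : DD V} (hx : x ∈ QQ V) :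
    ∃ e u : V, Orth e u ∧ InPl (eD e) (uD u) x := by
  obtain ⟨n1, n2⟩ := hx
  have hab : (inner ℝ ((1 / 2 : ℝ) • (x.fst + x.snd)) ((1 / 2 : ℝ) • (x.fst - x.snd)) : ℝ) = 0 := by
    simp only [inner_smul_left, inner_smul_right, inner_add_left, inner_sub_right,
      real_inner_self_eq_norm_sq, n1, n2, conj_trivial, real_inner_comm x.fst x.snd]
    ring
  have hn : (1 / 2 : ℝ) • (x.fst + x.snd) ≠ 0 ∨ (1 / 2 : ℝ) • (x.fst - x.snd) ≠ 0 := by
    by_contra hc
    push Not at hc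
    obtain ⟨c1, c2⟩ := hc
    have h3 : x.fst = 0 := by
      have h4 : x.fst = (1 / 2 : ℝ) • (x.fst + x.snd) + (1 / 2 : ℝ) • (x.fst - x.snd) := by module
      rw [h4, c1, c2, add_zero]
    rw [h3] at n1
    norm_num at n1
  obtain ⟨e, u, ⟨he, hu, heu⟩, ⟨s, -, hs, -⟩, ⟨t, -, ht, -⟩⟩ := H506.row_M' h2 (c := (0 : V))
    (d := (0 : V)) hab hn (by simp) (by simp) (by simp)
  exact ⟨e, u, ⟨he, hu, heu⟩, inPl_of ⟨he, hu, heu⟩ hs ht⟩

/-- **Every point of an invariant exact Lagrangian lies over a plane.** -/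
theorem exists_pl2 {n : ℕ} {L : Set (DD V × DD V)} (hL : IsClosedExactLagrangian n (QQ V) L)
    (hinv : DiagInv L) (h2 : 2 ≤ Module.finrank ℝ V) {z : DD V × DD V} (hz : z ∈ L) :
    ∃ e u : V, Orth e u ∧ InPl (eD e) (uD u) z.1 ∧ InPl (eD e) (uD u) z.2 := by
  have hzC := hL.sub hz
  obtain ⟨n1, n2⟩ := hzC.1
  obtain ⟨o1, o2⟩ := cot_QQ hzC
  have hmom : ∀ v w : V, Orth v w → (inner ℝ v z.1.fst * inner ℝ w z.2.fst -
      inner ℝ w z.1.fst * inner ℝ v z.2.fst + (inner ℝ v z.1.snd * inner ℝ w z.2.snd -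
      inner ℝ w z.1.snd * inner ℝ v z.2.snd) : ℝ) = 0 := by
    intro v w ho
    have hp := onePar_rt ho
    have hP : IsOnePar (fun t => dg (rtE v w t))
        (fun x : DD V => mk (XF v w x.fst) (XF v w x.snd)) := by
      refine ⟨fun s t x => ext_DD (hp.add s t x.fst) (hp.add s t x.snd), fun x => ?_⟩
      have h3 := (hp.deriv x.fst).prodMk (hp.deriv x.snd)
      exact ((WithLp.prodContinuousLinearEquiv 2 ℝ V V).symm : V × V →L[ℝ] DD V).hasFDerivAt.comp_hasDerivAt (0 : ℝ) h3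
    have h4 := hP.moment hL (fun t z hz => hinv _ (ho.rtE_det t) z hz) hz
    rw [inner_DD, mk_fst, mk_snd] at h4
    unfold XF at h4
    rw [inner_sub_right, inner_sub_right, inner_smul_right, inner_smul_right, inner_smul_right,
      inner_smul_right, real_inner_comm w z.2.fst, real_inner_comm v z.2.fst,
      real_inner_comm w z.2.snd, real_inner_comm v z.2.snd] at h4
    linarith
  have hab : (inner ℝ ((1 / 2 : ℝ) • (z.1.fst + z.1.snd)) ((1 / 2 : ℝ) • (z.1.fst - z.1.snd)) : ℝ)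
      = 0 := by
    simp only [inner_smul_left, inner_smul_right, inner_add_left, inner_sub_right,
      real_inner_self_eq_norm_sq, n1, n2, conj_trivial, real_inner_comm z.1.fst z.1.snd]
    ring
  have hn : (1 / 2 : ℝ) • (z.1.fst + z.1.snd) ≠ 0 ∨ (1 / 2 : ℝ) • (z.1.fst - z.1.snd) ≠ 0 := by
    by_contra hc
    push Not at hc
    obtain ⟨c1, c2⟩ := hc
    have h3 : z.1.fst = 0 := by
      have h4 : z.1.fst = (1 / 2 : ℝ) • (z.1.fst + z.1.snd) + (1 / 2 : ℝ) • (z.1.fst - z.1.snd) := by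
        module
      rw [h4, c1, c2, add_zero]
    rw [h3] at n1
    norm_num at n1
  obtain ⟨e, u, ⟨he, hu, heu⟩, ⟨s, s', hs, hs'⟩, ⟨t, t', ht, ht'⟩⟩ := H506.row_M' h2
    (c := (1 / 2 : ℝ) • (z.2.fst + z.2.snd)) (d := (1 / 2 : ℝ) • (z.2.fst - z.2.snd)) hab hn (by
      simp only [inner_smul_left, inner_smul_right, inner_add_left, inner_add_right,
        inner_sub_left, inner_sub_right, o1, o2, conj_trivial]
      ring) (by
      simp only [inner_smul_left, inner_smul_right, inner_add_left, inner_add_right,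
        inner_sub_left, inner_sub_right, o1, o2, conj_trivial]
      ring) (by
      intro v w hv hw hvw
      have h3 := hmom v w ⟨hv, hw, hvw⟩
      simp only [inner_smul_left, inner_smul_right, inner_add_left, inner_add_right,
        inner_sub_left, inner_sub_right, conj_trivial]
      linear_combination (1 / 2) * h3)
  exact ⟨e, u, ⟨he, hu, heu⟩, inPl_of ⟨he, hu, heu⟩ hs ht, inPl_of ⟨he, hu, heu⟩ hs' ht'⟩

/-- an isometry that fixes a pair fixes the plane -/
theorem dg_fix {g : V ≃ₗᵢ[ℝ] V} {e u : V} (he : g e = e) (hu : g u = u) {x : DD V}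
    (hx : InPl (eD e) (uD u) x) : dg g x = x := by
  obtain ⟨s, t, h1, h2⟩ := inPl_parts hx
  refine ext_DD ?_ ?_
  · rw [dg_fst, h1, map_add, map_smul, map_smul, he, hu]
  · rw [dg_snd, h2, map_sub, map_smul, map_smul, he, hu]

/-- invariance under all isometries of determinant `± 1` -/
theorem inv_all {n : ℕ} {L : Set (DD V × DD V)} (hL : IsClosedExactLagrangian n (QQ V) L)
    (hinv : DiagInv L) (h3 : 3 ≤ Module.finrank ℝ V) {g : V ≃ₗᵢ[ℝ] V}
    (hdet : LinearMap.det (g.toLinearEquiv : V →ₗ[ℝ] V) = 1 ∨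
      LinearMap.det (g.toLinearEquiv : V →ₗ[ℝ] V) = -1) {z : DD V × DD V} (hz : z ∈ L) :
    (dg g z.1, dg g z.2) ∈ L := by
  rcases hdet with h | h
  · exact hinv g h z hz
  · obtain ⟨e, u, ho, p1, p2⟩ := exists_pl2 hL hinv (by omega) hz
    obtain ⟨w, hw, hew, huw⟩ := exists_third (e := e) (u := u) h3
    have hwe : inner ℝ w e = (0 : ℝ) := by rw [real_inner_comm]; exact hew
    have hwu : inner ℝ w u = (0 : ℝ) := by rw [real_inner_comm]; exact huw
    have h4 := hinv ((Refl w).trans g) (by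
      have : (((Refl w).trans g).toLinearEquiv : V →ₗ[ℝ] V) =
        (g.toLinearEquiv : V →ₗ[ℝ] V) ∘ₗ ((Refl w).toLinearEquiv : V →ₗ[ℝ] V) := rfl
      rw [this, LinearMap.det_comp, h, Refl_det hw]
      norm_num) z hz
    have h5 : ∀ x : DD V, dg ((Refl w).trans g) x = dg g (dg (Refl w) x) := fun x => rfl
    rw [h5, h5, dg_fix (Refl_fix hw hwe) (Refl_fix hw hwu) p1,
      dg_fix (Refl_fix hw hwe) (Refl_fix hw hwu) p2] at h4
    exact h4

/-- the swap of the factors -/
def swp (x : DD V) : DD V := mk x.snd x.fst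

theorem swp_pl {e u : V} (h : Orth e u) {x : DD V} (hx : InPl (eD e) (uD u) x) :
    swp x = dg (Refl u) x := by
  obtain ⟨s, t, h1, h2⟩ := inPl_parts hx
  have hue : Refl u e = e := Refl_fix h.w1 h.wv
  have huu : Refl u u = -u := by
    rw [Refl_apply h.w1, h.ww]
    module
  refine ext_DD ?_ ?_
  · rw [dg_fst, h1, map_add, map_smul, map_smul, hue, huu]
    change x.snd = _
    rw [h2]
    module
  · rw [dg_snd, h2, map_sub, map_smul, map_smul, hue, huu]
    change x.fst = _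
    rw [h1]
    module

theorem inv_swp {n : ℕ} {L : Set (DD V × DD V)} (hL : IsClosedExactLagrangian n (QQ V) L)
    (hinv : DiagInv L) (h3 : 3 ≤ Module.finrank ℝ V) {z : DD V × DD V} (hz : z ∈ L) :
    (swp z.1, swp z.2) ∈ L := by
  obtain ⟨e, u, ho, p1, p2⟩ := exists_pl2 hL hinv (by omega) hz
  rw [swp_pl ho p1, swp_pl ho p2]
  exact inv_all hL hinv h3 (Or.inr (Refl_det ho.w1)) hz

end Vale.Agent.P220.R2.H562.S
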