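import Vale.Agent.P220.R2.H562.S.Half

/-!
# Exact Lagrangians over a product of two spheres with diagonal symmetry
-/

open Set Filter Topology
open scoped ContDiff

set_option linter.unusedSectionVars false

namespace Vale.Agent.P220.R2.H562.S

open H57 H180 H562

variable {V : Type} [NormedAddCommGroup V] [InnerProductSpace ℝ V] [FiniteDimensional ℝ V]

/-- points of the plane come from the sphere -/
theorem exists_jm {e u : V} (h : Orth e u) {x : DD V} (hx : InPl (eD e) (uD u) x) :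
    ∃ y : V, InPl e u y ∧ jm u y = x := by
  obtain ⟨s, t, h1, h2⟩ := inPl_parts hx
  have hue : Refl u e = e := Refl_fix h.w1 h.wv
  have huu : Refl u u = -u := by
    rw [Refl_apply h.w1, h.ww]
    module
  refine ⟨c2 • (s • e + t • u), InPl.smul h.v1 h.w1 h.vw (c2 * s) (c2 * t) (by module), ?_⟩
  refine ext_DD ?_ ?_
  · rw [jm_fst, smul_smul, inv_mul_cancel₀ c2_ne, one_smul, h1]
  · rw [jm_snd, map_smul, smul_smul, inv_mul_cancel₀ c2_ne, one_smul, map_add, map_smul,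
      map_smul, hue, huu, h2]
    module

theorem jm_pl {e u : V} (h : Orth e u) {y : V} (hy : InPl e u y) :
    InPl (eD e) (uD u) (jm u y) := by
  have hue : Refl u e = e := Refl_fix h.w1 h.wv
  have huu : Refl u u = -u := by
    rw [Refl_apply h.w1, h.ww]
    module
  have ho := (adm h).orth isPr_PA
  refine InPl.smul ho.v1 ho.w1 ho.vw (inner ℝ e y) (inner ℝ u y) ?_
  have h1 : Refl u y = (inner ℝ e y : ℝ) • e - (inner ℝ u y : ℝ) • u := by
    conv_lhs => rw [hy]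
    rw [map_add, map_smul, map_smul, hue, huu]
    module
  refine ext_DD ?_ ?_
  · rw [jm_fst, WithLp.add_fst, WithLp.smul_fst, WithLp.smul_fst, eD_fst, uD_fst]
    conv_lhs => rw [hy]
    module
  · rw [jm_snd, WithLp.add_snd, WithLp.smul_snd, WithLp.smul_snd, eD_snd, uD_snd, h1]
    module

/-- the projection on the line of `u` -/
noncomputable def PU (u : V) : V →L[ℝ] V := (ℝ ∙ u).starProjection

theorem PA_jm {u : V} (hu : ‖u‖ = 1) (x : V) : PA (jm u x) = jm u (PU u x) := by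
  have h1 : PU u x = (inner ℝ u x : ℝ) • u := by
    unfold PU
    rw [Submodule.starProjection_unit_singleton ℝ hu]
  have huu : Refl u u = -u := by
    rw [Refl_apply hu, e_e hu]
    module
  refine ext_DD ?_ ?_
  · rw [PA_fst, jm_fst, jm_snd, jm_fst, h1, Refl_apply hu]
    module
  · rw [PA_snd, jm_fst, jm_snd, jm_snd, h1, Refl_apply hu, map_smul, huu]
    module

theorem wf_jm {u : V} (hu : ‖u‖ = 1) (z : V × V) :
    wf PA (jm u z.1, jm u z.2) = wf (PU u) z := by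
  unfold wf
  simp only [PA_jm hu, jm_norm, jm_inner]

/-- moving a pair to the standard pair -/
theorem exists_move {e u e' u' : V} (h : Orth e u) (h' : Orth e' u') :
    ∃ g₁ g₂ : V ≃ₗᵢ[ℝ] V, (∀ x, g₁ (g₁ x) = x) ∧ (∀ x, g₂ (g₂ x) = x) ∧
      g₂ (g₁ e') = e ∧ g₂ (g₁ u') = u ∧
      (LinearMap.det (g₁.toLinearEquiv : V →ₗ[ℝ] V) = 1 ∨
        LinearMap.det (g₁.toLinearEquiv : V →ₗ[ℝ] V) = -1) ∧
      (LinearMap.det (g₂.toLinearEquiv : V →ₗ[ℝ] V) = 1 ∨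
        LinearMap.det (g₂.toLinearEquiv : V →ₗ[ℝ] V) = -1) := by
  obtain ⟨g₁, -, s1, i1, d1⟩ := exists_swap2 (K := (⊥ : Submodule ℝ V)) h.v1 h'.v1
    (fun x hx => by rw [(Submodule.mem_bot ℝ).1 hx, inner_zero_right])
    (fun x hx => by rw [(Submodule.mem_bot ℝ).1 hx, inner_zero_right])
  have h1 : ‖g₁ u'‖ = 1 := (g₁.norm_map _).trans h'.w1
  have h2 : (inner ℝ (g₁ u') e : ℝ) = 0 := by
    rw [← s1, g₁.inner_map_map]
    exact h'.wv
  obtain ⟨g₂, f2, s2, i2, d2⟩ := exists_swap2 (K := ℝ ∙ e) h.w1 h1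
    (fun x hx => by
      obtain ⟨a, rfl⟩ := Submodule.mem_span_singleton.1 hx
      rw [inner_smul_right, h.wv, mul_zero])
    (fun x hx => by
      obtain ⟨a, rfl⟩ := Submodule.mem_span_singleton.1 hx
      rw [inner_smul_right, h2, mul_zero])
  refine ⟨g₁, g₂, i1, i2, ?_, s2, d1, d2⟩
  rw [s1]
  exact f2 e (Submodule.mem_span_singleton_self e)

/-- the plane moves with the pair -/
theorem inPl_dg2 {g₁ g₂ : V ≃ₗᵢ[ℝ] V} {e u e' u' : V} (h : Orth e u) (he : g₂ (g₁ e') = e)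
    (hu : g₂ (g₁ u') = u) {x : DD V} (hx : InPl (eD e') (uD u') x) :
    InPl (eD e) (uD u) (dg g₂ (dg g₁ x)) := by
  obtain ⟨s, t, h1, h2⟩ := inPl_parts hx
  have e1 : (dg g₂ (dg g₁ x)).fst = s • e + t • u := by
    rw [dg_fst, dg_fst, h1, map_add, map_add, map_smul, map_smul, map_smul, map_smul, he, hu]
  have e2 : (dg g₂ (dg g₁ x)).snd = s • e - t • u := by
    rw [dg_snd, dg_snd, h2, map_sub, map_sub, map_smul, map_smul, map_smul, map_smul, he, hu]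
  refine inPl_of h (s := s) (t := t) ?_ ?_
  · rw [e1, e2]
    module
  · rw [e1, e2]
    module

theorem dg_invol {g : V ≃ₗᵢ[ℝ] V} (h : ∀ x, g (g x) = x) (x : DD V) : dg g (dg g x) = x := by
  refine ext_DD ?_ ?_
  · rw [dg_fst, dg_fst, h]
  · rw [dg_snd, dg_snd, h]

/-- **Main theorem.** -/
theorem main_diag {m : ℕ} (hm : Module.finrank ℝ V = m + 1) (h2m : 2 ≤ m)
    {L : Set (DD V × DD V)} (hL : IsClosedExactLagrangian (m + m) (QQ V) L) (hinv : DiagInv L) :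
    HamIsotopicToZero (QQ V) L := by
  have h3 : 3 ≤ Module.finrank ℝ V := by omega
  -- a standard pair
  obtain ⟨zs, hzs⟩ := hL.nonempty
  obtain ⟨e, u, h, -, -⟩ := exists_pl2 hL hinv (by omega) hzs
  have hu := h.w1
  have hall : ∀ g : V ≃ₗᵢ[ℝ] V, (LinearMap.det (g.toLinearEquiv : V →ₗ[ℝ] V) = 1 ∨
      LinearMap.det (g.toLinearEquiv : V →ₗ[ℝ] V) = -1) → ∀ z ∈ L, (dg g z.1, dg g z.2) ∈ L :=
    fun g hg z hz => inv_all hL hinv h3 hg hz
  have hrf : ∀ a : V, ‖a‖ = 1 → ∀ z ∈ L, (dg (Refl a) z.1, dg (Refl a) z.2) ∈ L :=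
    fun a ha => hall _ (Or.inr (Refl_det ha))
  have hRL : ∀ z ∈ L, (sg u z.1, sg u z.2) ∈ L := by
    intro z hz
    exact hrf u hu (swp z.1, swp z.2) (inv_swp hL hinv h3 hz)
  -- moving points to the slice
  have hmove : ∀ {e' u' : V}, Orth e' u' → ∃ g₁ g₂ : V ≃ₗᵢ[ℝ] V,
      (∀ x, dg g₁ (dg g₁ x) = x) ∧ (∀ x, dg g₂ (dg g₂ x) = x) ∧
      (∀ x, InPl (eD e') (uD u') x → InPl (eD e) (uD u) (dg g₂ (dg g₁ x))) ∧
      (∀ z ∈ L, (dg g₂ (dg g₁ z.1), dg g₂ (dg g₁ z.2)) ∈ L) ∧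
      ∀ z ∈ L, (dg g₁ (dg g₂ z.1), dg g₁ (dg g₂ z.2)) ∈ L := by
    intro e' u' h'
    obtain ⟨g₁, g₂, i1, i2, se, su, d1, d2⟩ := exists_move h h'
    refine ⟨g₁, g₂, dg_invol i1, dg_invol i2, ?_, ?_, ?_⟩
    · intro x hx
      exact inPl_dg2 h se su hx
    · intro z hz
      exact hall g₂ d2 (dg g₁ z.1, dg g₁ z.2) (hall g₁ d1 z hz)
    · intro z hz
      exact hall g₁ d1 (dg g₂ z.1, dg g₂ z.2) (hall g₂ d2 z hz)
  -- the half
  have hHf : ∀ {e' u' : V}, Orth e' u' → ∀ z ∈ L, InPl (eD e') (uD u') z.1 →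
      InPl (eD e') (uD u') z.2 → ∃ g₁ g₂ : V ≃ₗᵢ[ℝ] V, ∃ y : V × V, y ∈ Hf u L ∧
      InPl e u y.1 ∧ InPl e u y.2 ∧ jm u y.1 = dg g₂ (dg g₁ z.1) ∧
      jm u y.2 = dg g₂ (dg g₁ z.2) := by
    intro e' u' h' z hz p1 p2
    obtain ⟨g₁, g₂, -, -, hp, hm1, -⟩ := hmove h'
    obtain ⟨y1, q1, e1⟩ := exists_jm h (hp _ p1)
    obtain ⟨y2, q2, e2⟩ := exists_jm h (hp _ p2)
    refine ⟨g₁, g₂, (y1, y2), ?_, q1, q2, e1, e2⟩
    change (jm u y1, jm u y2) ∈ L
    rw [e1, e2]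
    exact hm1 z hz
  have hne0 : (Slc e u (Hf u L)).Nonempty := by
    obtain ⟨e', u', h', p1, p2⟩ := exists_pl2 hL hinv (by omega) hzs
    obtain ⟨g₁, g₂, y, hy, q1, q2, -, -⟩ := hHf h' zs hzs p1 p2
    exact ⟨y, hy, h.RR_eq.2 ⟨q1, q2⟩⟩
  have hH := half_closed hm hL hRL (hne0.mono fun z hz => hz.1)
  -- symmetries of the half
  have hcomm : ∀ {a : V}, ‖a‖ = 1 → (inner ℝ u a : ℝ) = 0 → ∀ x, Refl u (Refl a x) =
      Refl a (Refl u x) := by
    intro a ha hua x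
    have hau : (inner ℝ a u : ℝ) = 0 := by rw [real_inner_comm]; exact hua
    rw [Refl_apply hu, Refl_apply ha, Refl_apply ha, Refl_apply hu]
    simp only [inner_sub_right, inner_smul_right, hua, hau]
    module
  have hjR : ∀ {a : V}, ‖a‖ = 1 → (inner ℝ u a : ℝ) = 0 → ∀ x, jm u (Refl a x) =
      dg (Refl a) (jm u x) := by
    intro a ha hua x
    refine ext_DD ?_ ?_
    · rw [jm_fst, dg_fst, jm_fst, map_smul]
    · rw [jm_snd, dg_snd, jm_snd, map_smul, hcomm ha hua]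
  have hju : ∀ x, jm u (Refl u x) = dg (Refl u) (jm u x) := by
    intro x
    refine ext_DD ?_ ?_
    · rw [jm_fst, dg_fst, jm_fst, map_smul]
    · rw [jm_snd, dg_snd, jm_snd, map_smul]
  have hSu : ∀ z ∈ Hf u L, SS u z ∈ Hf u L := by
    intro z hz
    change (jm u (Refl u z.1), jm u (Refl u z.2)) ∈ L
    rw [hju, hju]
    exact hrf u hu (jm u z.1, jm u z.2) hz
  have hSe : ∀ z ∈ Hf u L, SS e z ∈ Hf u L := by
    intro z hz
    change (jm u (Refl e z.1), jm u (Refl e z.2)) ∈ L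
    rw [hjR h.v1 h.wv, hjR h.v1 h.wv]
    exact hrf e h.v1 (jm u z.1, jm u z.2) hz
  have hnegD : ∀ {e' u' : V}, Orth e' u' → ∀ x : DD V, InPl (eD e') (uD u') x →
      -x = dg (Refl e') (dg (Refl u') x) := by
    intro e' u' h' x hx
    obtain ⟨s, t, h1, h2⟩ := inPl_parts hx
    have e1 : Refl u' e' = e' := Refl_fix h'.w1 h'.wv
    have e2 : Refl u' u' = -u' := by
      rw [Refl_apply h'.w1, h'.ww]
      module
    have e3 : Refl e' u' = u' := Refl_fix h'.v1 h'.vw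
    have e4 : Refl e' e' = -e' := by
      rw [Refl_apply h'.v1, h'.vv]
      module
    refine ext_DD ?_ ?_
    · rw [WithLp.neg_fst, dg_fst, dg_fst, h1]
      simp only [map_add, map_smul, map_neg, e1, e2, e3, e4]
      module
    · rw [WithLp.neg_snd, dg_snd, dg_snd, h2]
      simp only [map_sub, map_smul, map_neg, e1, e2, e3, e4]
      module
  have hneg : ∀ z ∈ L, (-z.1, -z.2) ∈ L := by
    intro z hz
    obtain ⟨e', u', h', p1, p2⟩ := exists_pl2 hL hinv (by omega) hz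
    rw [hnegD h' _ p1, hnegD h' _ p2]
    exact hrf e' h'.v1 (dg (Refl u') z.1, dg (Refl u') z.2) (hrf u' h'.w1 z hz)
  have hnegH : ∀ z ∈ Hf u L, (-z.1, -z.2) ∈ Hf u L := by
    intro z hz
    change (jm u (-z.1), jm u (-z.2)) ∈ L
    rw [map_neg, map_neg]
    exact hneg (jm u z.1, jm u z.2) hz
  have hRRL : ∀ z ∈ Hf u L, RR e u z ∈ Hf u L := by
    intro z hz
    have h4 := hSe _ (hSu _ (hnegH z hz))
    rw [SS_apply, SS_apply] at h4
    rw [RR_apply, refl_Pl h, refl_Pl h]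
    simp only [map_neg] at h4
    exact h4
  have hS := h.slice_closed hm hH hRRL hne0
  have hInT : ∀ z ∈ Slc e u (Hf u L), InT e u z := by
    intro z hz
    obtain ⟨h4, h5⟩ := cot_sph.1 (hH.sub hz.1)
    obtain ⟨h6, h7⟩ := h.RR_eq.1 hz.2
    exact ⟨h4, h6, h7, h5⟩
  have hSSu : ∀ z ∈ Slc e u (Hf u L), SS u z ∈ Slc e u (Hf u L) := by
    intro z hz
    have h4 := h.InT_SS (hInT z hz)
    exact ⟨hSu z hz.1, h.RR_eq.2 ⟨h4.p1, h4.p2⟩⟩
  have hSSe : ∀ z ∈ Slc e u (Hf u L), SS e z ∈ Slc e u (Hf u L) := by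
    intro z hz
    have h4 := InT_SSe h (hInT z hz)
    exact ⟨hSe z hz.1, h.RR_eq.2 ⟨h4.p1, h4.p2⟩⟩
  obtain ⟨D, hDQ, hDL, hDX⟩ := exists_base' h.circ_closed hS (h.slice_emb hS.sub)
  obtain ⟨Λ⟩ := D.exists_leaf
  obtain ⟨γ, hγ, hsym⟩ := exists_curve3 h Λ hDQ hDX (by rw [hDL]; exact hSSu)
    (by rw [hDL]; exact hSSe)
  rw [hDL] at hγ
  obtain ⟨c, hc, hc1, hc2⟩ := exists_arc2 hγ h hInT hsym
  have hPe : PU u e = 0 := by
    unfold PU
    rw [Submodule.starProjection_unit_singleton ℝ hu, h.wv, zero_smul]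
  have hPu : PU u u = u := by
    unfold PU
    rw [Submodule.starProjection_unit_singleton ℝ hu, h.ww, one_smul]
  have hwd : ∀ (g₁ g₂ : V ≃ₗᵢ[ℝ] V) (z : DD V × DD V),
      wf PA (dg g₂ (dg g₁ z.1), dg g₂ (dg g₁ z.2)) = wf PA z := by
    intro g₁ g₂ z
    have e1 := wf_map (P := PA) (g := dg g₂) (PA_dg g₂) (dg g₁ z.1, dg g₁ z.2)
    have e2 := wf_map (P := PA) (g := dg g₁) (PA_dg g₁) z
    rw [e1, e2]
  obtain ⟨UQ, r, hr⟩ := exists_QQ_ret (V := V)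
  refine ham_of_arcQ isPr_PA hr QQ_compact QQ_sub (fun q hq => ?_) hc fun z => ?_
  · obtain ⟨e', u', h', p1⟩ := exists_pl (by omega) hq
    exact ⟨eD e', uD u', adm h', p1⟩
  constructor
  · intro hz
    have hzC := hL.sub hz
    obtain ⟨o1, o2⟩ := cot_QQ hzC
    obtain ⟨e', u', h', p1, p2⟩ := exists_pl2 hL hinv (by omega) hz
    refine ⟨mem_Sph.1 (QQ_sub hzC.1), by rw [inner_DD, o1, o2, add_zero],
      ⟨eD e', uD u', adm h', p1, p2⟩, ?_⟩
    obtain ⟨g₁, g₂, y, hy, q1, q2, e1, e2⟩ := hHf h' z hz p1 p2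
    have hsl : y ∈ Slc e u (Hf u L) := ⟨hy, h.RR_eq.2 ⟨q1, q2⟩⟩
    obtain ⟨τ, hτ, hcτ⟩ := hc1 _ hsl
    refine ⟨τ, hτ, ?_⟩
    rw [hcτ, ← wf_slice h hPe hPu (hInT _ hsl), ← wf_jm hu, e1, e2, hwd]
  · rintro ⟨h4, h5, ⟨x, x', hA, p1, p2⟩, τ, hτ, hcτ⟩
    obtain ⟨e', u', h', rfl, rfl⟩ := adm_iff hA
    obtain ⟨z₀, hz₀, hwz₀⟩ := hc2 τ hτ
    obtain ⟨g₁, g₂, i1, i2, hp, -, hm2⟩ := hmove h'
    obtain ⟨y1, q1, e1⟩ := exists_jm h (hp _ p1)
    obtain ⟨y2, q2, e2⟩ := exists_jm h (hp _ p2)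
    have hT : InT e u (y1, y2) := by
      refine ⟨?_, q1, q2, ?_⟩
      · change ‖y1‖ = 1
        rw [← jm_norm u, e1, LinearIsometryEquiv.norm_map, LinearIsometryEquiv.norm_map]
        exact h4
      · change (inner ℝ y1 y2 : ℝ) = 0
        rw [← jm_inner u, e1, e2, LinearIsometryEquiv.inner_map_map,
          LinearIsometryEquiv.inner_map_map]
        exact h5
    have hw : wt e (y1, y2) ^ 2 = wt e z₀ ^ 2 := by
      have e3 := wf_slice h hPe hPu hT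
      have e4 := wf_jm hu (y1, y2)
      change wf PA (jm u y1, jm u y2) = _ at e4
      rw [e1, e2, hwd] at e4
      rw [← e4, ← hcτ, ← hwz₀] at e3
      linear_combination -e3 / 2
    have hT0 := hInT z₀ hz₀
    have h8 : ((y1, y2) : V × V) ∈ Hf u L := by
      rcases sq_eq_sq_iff_eq_or_eq_neg.1 hw with h9 | h9
      · rcases h.eq_or_of_wt hT hT0 h9 with h10 | h10
        · rw [h10]
          exact hz₀.1
        · rw [h10]
          exact hSu _ hz₀.1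
      · rw [← wte_SS h] at h9
        rcases h.eq_or_of_wt hT (InT_SSe h hT0) h9 with h10 | h10
        · rw [h10]
          exact hSe _ hz₀.1
        · rw [h10]
          exact hSu _ (hSe _ hz₀.1)
    have h9 : (jm u y1, jm u y2) ∈ L := h8
    rw [e1, e2] at h9
    have h10 := hm2 (dg g₂ (dg g₁ z.1), dg g₂ (dg g₁ z.2)) h9
    simp only [i1, i2] at h10
    exact h10

end Vale.Agent.P220.R2.H562.S
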